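import Vale.Agent.P011.H305.SolvF

/-!
**Function fields: open at some finite set of places implies open at the places of division type.**
-/

open Module
open scoped commutatorElement

set_option linter.unusedSectionVars false

namespace Vale.Agent.P011.H271.Odd

open Vale.Agent.P011.H738 Vale.Agent.P011.H271 Vale.Agent.P011.H698 Vale.Agent.P011.H976

variable {k K A Ω : Type} [Field k] [Field K] [StarRing K] [Ring A] [StarRing A]
  [Algebra k K] [Algebra k A] [Algebra K A] [IsScalarTower k K A] [StarModule K A] {n N : ℕ}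
  [Field Ω] [Algebra K Ω]

/-- A normal subgroup of finite index which contains the elements close to one at some finite set
of places contains the elements close to one at finitely many places of division type. -/
theorem nearA_of_near (hk : IsGlobalFunctionField k) (hA : Anis k K A n) (hn : 3 ≤ n)
    (f : A →ₐ[K] Matrix (Fin n) (Fin n) Ω) (B : Basis (Fin N) k A)
    (Q : Subgroup (SUA f)) [Q.Normal] (hi : Q.index ≠ 0) (T : Finset (Place k)) {ε : ℝ}
    (hε : 0 < ε)
    (h : ∀ g : SUA f, (∀ v ∈ T, Sm B v ε (((g : Aˣ) : A) - 1)) → g ∈ Q) :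
    NearA k K f B Q := by
  have hgff := gff_of_isGlobal hk
  have hst : ∀ (c : k) (x : A), star (c • x) = c • star x := H519.star_smul_of_anis hA
  obtain ⟨q, hq, -, φ, g, hφ, -, hspan⟩ := H519.exists_split_place hk hA (by omega) T 0
  set e : GA f →* SUA f := (eGA f : GA f →* SUA f) with he
  have hsur : Function.Surjective e := (eGA f).surjective
  have hM'n : (Q.comap e).Normal := inferInstance
  have hM'i : (Q.comap e).FiniteIndex := ⟨by
    rw [Subgroup.index_comap_of_surjective _ hsur]
    exact hi⟩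
  have hF : ((Q.comap e : Subgroup (GA f)) : Set (GA f)) ∈ Fc (GA f) (FLv f B {q}) := by
    refine Filter.mem_of_superset (near_mem_Fc f B hq hε) fun g hg => ?_
    rw [SetLike.mem_coe, Subgroup.mem_comap]
    exact h _ hg
  obtain ⟨T', hT', ε', hε', h'⟩ :=
    near_of_mem hk hA hn f B (splitNS hA (by omega)) hφ hspan (Q.comap e) hF
  refine ⟨T', hT', ε', hε', fun g hg => ?_⟩
  obtain ⟨u, rfl⟩ := hsur g
  exact h' u hg

/-- **The solvable step**: it is enough that the subgroup contains the elements close to one at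
some finite set of places. -/
theorem solvAtF_of_nearT (hk : IsGlobalFunctionField k) (hA : Anis k K A n) (hn : 3 ≤ n)
    (f : A →ₐ[K] Matrix (Fin n) (Fin n) Ω) (B : Basis (Fin N) k A)
    (h : ∀ Q H : Subgroup (SUA f), Q.Normal → H.Normal → Q ≤ H → Q.index ≠ 0 →
      NearA k K f B H → (Q.relIndex H).Prime → (∀ g : SUA f, ∀ x ∈ H, ⁅g, x⁆ ∈ Q) →
      (∀ V : Subgroup (SUA f), NearA k K f B V → H ≤ Q ⊔ V) →
      ∃ T : Finset (Place k), ∃ ε : ℝ, 0 < ε ∧
        ∀ g : SUA f, (∀ v ∈ T, Sm B v ε (((g : Aˣ) : A) - 1)) → g ∈ Q) :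
    H305.SolvAtF k K f B := by
  intro Q H hQ hH hQH hi hpf hp hc hV
  obtain ⟨T, ε, hε, h0⟩ := h Q H hQ hH hQH hi hpf hp hc hV
  have h1 := hV Q (nearA_of_near hk hA hn f B Q hi T hε h0)
  rw [sup_idem] at h1
  rw [Subgroup.relIndex_eq_one.mpr h1] at hp
  exact Nat.not_prime_one hp

end Vale.Agent.P011.H271.Odd
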