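import Vale.Agent.P011.H271.Odd.ChrL
import Vale.Agent.P011.H271.Odd.NearT
import Vale.Agent.P011.H775.Odd.TopNorm
import Vale.Agent.P011.H465.NrdCont
import Vale.Agent.P011.H327.RnInst

/-!
**Function fields: the topology of `D` at a finite set of places.**
-/

open Module Filter Topology
open scoped commutatorElement

set_option linter.unusedSectionVars false
set_option linter.style.haveILetI false

namespace Vale.Agent.P011.H271.Odd

open Vale.Agent.P011.H738 Vale.Agent.P011.H271 Vale.Agent.P011.H698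
open Vale.Agent.P011.H775.Top

section small

variable {k D : Type} [Field k] [DivisionRing D] [StarRing D] [Algebra k D] {ι κ : Type*}
  [Fintype ι] [Fintype κ] [Nonempty ι] (B : Basis κ k D) (a : ι → AbsoluteValue k ℝ)

/-- There are arbitrarily small groups of unitary elements. -/
theorem smallG (ha : ∀ i, IsNonarchimedean (a i))
    (hst : ∀ (c : k) (x : D), star (c • x) = c • star x) :
    @SmallG D _ _ (topD B a) := by
  letI := topD B a
  haveI := continuousStar B a hst
  haveI := isTopologicalRing B a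
  intro O hO
  obtain ⟨ε, hε, h⟩ := (mem_nhds_iff_pn B a).mp hO
  set δ : ℝ := min ε 1 with hδ
  have hδ0 : 0 < δ := lt_min hε one_pos
  have hδ1 : δ ≤ 1 := min_le_right _ _
  have hpn1 : ∀ x : D, pn B a (x - 1) < δ → pn B a x ≤ 1 := fun x hx => by
    have h1 : x = (x - 1) + 1 := by abel
    rw [h1]
    refine (pn_add_le_max B a ha _ _).trans (max_le (hx.le.trans hδ1) ?_)
    rw [pn_one]
  have hmul : ∀ x y : D, pn B a (x - 1) < δ → pn B a (y - 1) < δ → pn B a (x * y - 1) < δ := by
    intro x y hx hy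
    have h1 : x * y - 1 = x * (y - 1) + (x - 1) := by noncomm_ring
    rw [h1]
    refine (pn_add_le_max B a ha _ _).trans_lt (max_lt ?_ hx)
    calc pn B a (x * (y - 1)) ≤ pn B a x * pn B a (y - 1) := pn_mul_le B a _ _
      _ ≤ 1 * pn B a (y - 1) := mul_le_mul_of_nonneg_right (hpn1 x hx) (pn_nonneg B a _)
      _ < δ := by rw [one_mul]; exact hy
  refine ⟨{u | u * star u = 1 ∧ pn B a (u - 1) < δ ∧ pn B a (star u - 1) < δ}, ?_, ?_, ?_, ?_, ?_⟩
  · rintro u ⟨-, hu, -⟩
    exact h u (hu.trans_le (min_le_left _ _))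
  · exact fun u hu => hu.1
  · rintro u ⟨h1, h2, h3⟩ v ⟨h4, h5, h6⟩
    refine ⟨?_, hmul u v h2 h5, ?_⟩
    · rw [star_mul, mul_assoc, ← mul_assoc v, h4, one_mul, h1]
    · rw [star_mul]
      exact hmul _ _ h6 h3
  · rintro u ⟨h1, h2, h3⟩
    exact ⟨by rw [star_star]; exact star_mul_of h1, h3, by rw [star_star]; exact h2⟩
  · have h1 : ∀ᶠ x in 𝓝 (1 : D), pn B a (x - 1) < δ :=
      (eventually_iff_pn B a).mpr ⟨δ, hδ0, fun x hx => hx⟩
    have h2 : ∀ᶠ x in 𝓝 (1 : D), pn B a (star x - 1) < δ := by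
      have h3 : Tendsto (fun x : D => star x) (𝓝 1) (𝓝 1) := by
        have := (continuous_star (R := D)).tendsto 1
        rwa [star_one] at this
      exact h3.eventually h1
    filter_upwards [h1, h2] with x hx hx' hxu
    exact ⟨hxu, hx, hx'⟩

end small

section norm

variable {k K D Ω : Type} [Field k] [Field K] [DivisionRing D]
  [Algebra k K] [Algebra k D] [Algebra K D] [IsScalarTower k K D] [FiniteDimensional K D]
  [Field Ω] [Algebra K Ω] {n N : ℕ} {ι : Type*} [Fintype ι] [Nonempty ι]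
  (B : Basis (Fin N) k D) (a : ι → AbsoluteValue k ℝ)

/-- The reduced norm is continuous. -/
theorem tendsto_nrd (f : D →ₐ[K] Matrix (Fin n) (Fin n) Ω) {R : D →* K}
    (hR : ∀ x, (f x).det = algebraMap K Ω (R x)) :
    Tendsto (fun x : D => algebraMap K D (R x)) (@nhds D (topD B a) 1)
      (@nhds D (topD B a) 1) := by
  letI := topD B a
  haveI := isTopologicalRing B a
  have hlin : ∀ Λ : D →ₗ[K] K, Continuous fun x => algebraMap K D (Λ x) := by
    intro Λ
    let g : D →ₗ[k] D := ((Algebra.linearMap K D).restrictScalars k).comp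
      (Λ.restrictScalars k)
    obtain ⟨C, hC, hg⟩ := sz_linear B a g
    rw [continuous_iff_continuousAt]
    intro x₀
    change Tendsto _ _ _
    rw [tendsto_iff B a]
    have h1 : Tendsto (fun x => C * sz B a (x - x₀)) (𝓝 x₀) (𝓝 (C * 0)) :=
      ((tendsto_iff B a).mp tendsto_id).const_mul C
    rw [mul_zero] at h1
    refine squeeze_zero (fun x => sz_nonneg B a _) (fun x => ?_) h1
    rw [← map_sub, ← map_sub]
    exact hg (x - x₀)
  have h := (H465.nrd_cont hlin f (nrd := R) fun x => (hR x).symm).tendsto 1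
  rwa [map_one, map_one] at h

theorem tendsto_nrd_inv (f : D →ₐ[K] Matrix (Fin n) (Fin n) Ω) {R : D →* K}
    (hR : ∀ x, (f x).det = algebraMap K Ω (R x)) :
    Tendsto (fun x : D => algebraMap K D (R x)⁻¹) (@nhds D (topD B a) 1)
      (@nhds D (topD B a) 1) := by
  letI := topD B a
  haveI := isTopologicalRing B a
  haveI := H775.Top.continuousInv₀ B a
  have h := (tendsto_nrd B a f hR).inv₀ one_ne_zero
  rw [inv_one] at h
  refine h.congr fun x => ?_
  rw [map_inv₀]

omit [FiniteDimensional K D] [Algebra k K] [IsScalarTower k K D] in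
/-- The roots of unity are far from one. -/
theorem roots_far (hn : n ≠ 0) :
    ∀ᶠ x in @nhds D (topD B a) 1, ∀ b : K, algebraMap K D b = x → b ^ n = 1 → b = 1 := by
  classical
  letI := topD B a
  haveI := t2 B a
  have hfin : {b : K | b ^ n = 1}.Finite := by
    refine ((Polynomial.nthRoots n (1 : K)).toFinset.finite_toSet).subset fun b hb => ?_
    rw [Finset.mem_coe, Multiset.mem_toFinset, Polynomial.mem_nthRoots (Nat.pos_of_ne_zero hn)]
    exact hb
  have h1 : ∀ b ∈ {b : K | b ^ n = 1}, ∀ᶠ x in 𝓝 (1 : D), algebraMap K D b = x → b = 1 := by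
    intro b _
    by_cases hb : b = 1
    · exact Eventually.of_forall fun _ _ => hb
    · have h2 : (1 : D) ≠ algebraMap K D b := fun h => hb ((algebraMap K D).injective (by
        rw [← h, map_one]))
      have h3 : ∀ᶠ x in 𝓝 (1 : D), x ≠ algebraMap K D b := isOpen_ne.mem_nhds h2
      exact h3.mono fun x hx h => absurd h.symm hx
  have h3 := (eventually_all_finite hfin).mpr h1
  exact h3.mono fun x hx b hbx hb => hx b hb hbx

end norm

section ff

variable {k K D Ω : Type} [Field k] [Field K] [StarRing K] [DivisionRing D] [StarRing D]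
  [Algebra k K] [Algebra k D] [Algebra K D] [IsScalarTower k K D] [StarModule K D] {n N : ℕ}
  [Field Ω] [Algebra K Ω]

/-- The absolute values at the places of `T`. -/
abbrev af {k : Type} [Field k] (T : Finset (Place k)) : T → AbsoluteValue k ℝ :=
  fun v => (v : Place k).abv

theorem af_na (T : Finset (Place k)) (v : T) : IsNonarchimedean (af T v) :=
  (v : Place k).nonarch

/-- The neighbourhoods in coordinates. -/
theorem ev_iff {T : Finset (Place k)} [Nonempty T] (B : Basis (Fin N) k D) {P : D → Prop}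
    {x₀ : D} : (∀ᶠ x in @nhds D (topD B (af T)) x₀, P x) ↔
    ∃ ε : ℝ, 0 < ε ∧ ∀ x, (∀ v ∈ T, Sm B v ε (x - x₀)) → P x := by
  rw [H775.Top.eventually_iff]
  constructor
  · rintro ⟨ε, hε, h⟩
    exact ⟨ε, hε, fun x hx => h x fun i j => hx i i.2 j⟩
  · rintro ⟨ε, hε, h⟩
    exact ⟨ε, hε, fun x hx => h x fun v hv j => hx ⟨v, hv⟩ j⟩

/-- **The input `PSI` over function fields.** -/
def ModPsi (K : Type) {k D : Type} [Field k] [Field K] [StarRing K] [DivisionRing D] [StarRing D]
    [Algebra k D] [Algebra K D] {N : ℕ} (B : Basis (Fin N) k D) (T : Finset (Place k))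
    [Nonempty T] : Prop :=
  letI := topD B (af T)
  ∀ (E : Type) [AddCommGroup E] (W : Set D) (ch : D → E), H439.Chr K W ch →
    ∃ Ψ : D → E, LocAdd Ψ ∧ PsiCh ch Ψ

/-- **The input `E`.** -/
def ModE (f : D →ₐ[K] Matrix (Fin n) (Fin n) Ω) (B : Basis (Fin N) k D)
    (T : Finset (Place k)) : Prop :=
  ∀ Q H : Subgroup (SUA f), Q ≤ H → NearA k K f B H → (∀ g : SUA f, ∀ x ∈ H, ⁅g, x⁆ ∈ Q) →
    ∃ ε : ℝ, 0 < ε ∧ ∀ u w : Dˣ, (u : D) * star (u : D) = 1 → (w : D) * star (w : D) = 1 →
      (∀ v ∈ T, Sm B v ε ((u : D) - 1)) → (∀ v ∈ T, Sm B v ε ((w : D) - 1)) →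
      ⁅u, w⁆ ∈ Q.map (SUA f).subtype

/-- **The input `RW`**, for the primes which divide the degree. -/
def ModRW (f : D →ₐ[K] Matrix (Fin n) (Fin n) Ω) (B : Basis (Fin N) k D)
    (T : Finset (Place k)) [Nonempty T] (R : D →* K) (l : ℕ) : Prop :=
  letI := topD B (af T)
  ∀ Q H : Subgroup (SUA f), Q.Normal → H.Normal → Q ≤ H → Q.index ≠ 0 →
    NearA k K f B H → Q.relIndex H = l → (∀ g : SUA f, ∀ x ∈ H, ⁅g, x⁆ ∈ Q) →
    (∀ V : Subgroup (SUA f), NearA k K f B V → H ≤ Q ⊔ V) →
    ∀ (E : Type) [AddCommGroup E] (e : ℕ) (W1 W : Set D) (ch Ψ : D → E),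
      (∀ x : E, l ^ e • x = 0) → ChrD K R (Q.map (SUA f).subtype) W1 W ch →
      LocAdd Ψ → PsiCh ch Ψ → RWF R l (Q.map (SUA f).subtype) Ψ

end ff

end Vale.Agent.P011.H271.Odd
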