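import Vale.Agent.P011.H271.Odd.TopFF
import Vale.Agent.P011.H775.Odd.TopNb
import Vale.Agent.P011.H505.WangE

/-!
**Function fields: the input `RW` from a theorem on local homomorphisms.**
-/

open Module Filter Topology

set_option linter.unusedSectionVars false
set_option linter.style.haveILetI false

namespace Vale.Agent.P011.H271.Odd

open Vale.Agent.P011.H738 Vale.Agent.P011.H271 Vale.Agent.P011.H698
open Vale.Agent.P011.H775.Top
open Vale.Agent.P011.H677.GW (nb Good)
open Vale.Agent.P011.W (HasNrd)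

variable {k K D Ω : Type} [Field k] [Field K] [StarRing K] [DivisionRing D] [StarRing D]
  [Algebra k K] [Algebra k D] [Algebra K D] [IsScalarTower k K D] [StarModule K D] {n N : ℕ}
  [Field Ω] [Algebra K Ω]

/-- **`RW` from a theorem on local homomorphisms.** -/
theorem modRW_of_germ (f : D →ₐ[K] Matrix (Fin n) (Fin n) Ω) (B : Basis (Fin N) k D)
    {T : Finset (Place k)} [Nonempty T] {R : D →* K} {l : ℕ}
    (h : letI := topD B (af T); ∀ (E : Type) [AddCommGroup E] (e : ℕ),
      (∀ x : E, l ^ e • x = 0) → ∀ Ψ : D → E, LocAdd Ψ →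
        ∃ m : ℕ, Nat.Coprime m l ∧ ∀ᶠ u in 𝓝 (1 : D), R u = 1 → m • Ψ u = 0) :
    ModRW f B T R l := by
  letI := topD B (af T)
  intro Q H _ _ _ _ _ _ _ _ E _ e W1 W ch Ψ hE _ hΨ _ O hO
  obtain ⟨m, hm, h1⟩ := h E e hE Ψ hΨ
  filter_upwards [h1, hO] with u hu huO _ hR
  refine ⟨1, one_mem _, ?_, m, hm, ?_⟩
  · rw [Units.val_one, mul_one]
    exact huO
  · rw [Units.val_one, mul_one]
    exact hu hR

/-- A local homomorphism in the letters of the frame of module topologies. -/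
theorem good_of_locAdd (B : Basis (Fin N) k D) (T : Finset (Place k)) [Nonempty T] {E : Type}
    [AddCommGroup E] {Ψ : D → E} (h : letI := topD B (af T); LocAdd Ψ) :
    letI := topk (af T); Good k Ψ := by
  have h1 := nb_eq B (af T)
  letI := topk (af T)
  change ∀ᶠ p in nb k D ×ˢ nb k D, Ψ (p.1 * p.2) = Ψ p.1 + Ψ p.2
  rw [show nb k D = @nhds D (topD B (af T)) 1 from h1]
  obtain ⟨V, hV, h2⟩ := h
  exact mem_prod_iff.mpr ⟨V, hV, V, hV, fun p hp => h2 _ hp.1 _ hp.2⟩

/-- The value of the reduced norm. -/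
theorem hasNrd_one [FiniteDimensional K D] [Algebra.IsCentral K D] [Infinite K]
    (hdeg : finrank K D = n ^ 2) (f : D →ₐ[K] Matrix (Fin n) (Fin n) Ω) {R : D →* K}
    (hR : ∀ x, (f x).det = algebraMap K Ω (R x)) {u : D} (hu : R u = 1) : HasNrd K n u 1 :=
  H505.Wang.hasNrd_of_det hdeg f (by rw [hR, hu])

/-- **`RW` from a theorem in the letters of module topologies.** -/
theorem modRW_of_near [FiniteDimensional K D] [Algebra.IsCentral K D] [Infinite K]
    (hdeg : finrank K D = n ^ 2) (f : D →ₐ[K] Matrix (Fin n) (Fin n) Ω) (B : Basis (Fin N) k D)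
    {T : Finset (Place k)} [Nonempty T] {R : D →* K}
    (hR : ∀ x, (f x).det = algebraMap K Ω (R x)) {l : ℕ}
    (h : letI := topk (af T); ∀ (E : Type) [AddCommGroup E] (e : ℕ),
      (∀ x : E, l ^ e • x = 0) → ∀ F : D → E, Good k F →
        ∃ m : ℕ, Nat.Coprime m l ∧ ∀ᶠ x in nb k D, HasNrd K n x 1 → m • F x = 0) :
    ModRW f B T R l := by
  refine modRW_of_germ f B ?_
  letI := topD B (af T)
  intro E _ e hE Ψ hΨ
  obtain ⟨m, hm, h1⟩ := h E e hE Ψ (good_of_locAdd B T hΨ)
  refine ⟨m, hm, ?_⟩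
  have h2 : ∀ᶠ x in @nhds D (topD B (af T)) 1, HasNrd K n x 1 → m • Ψ x = 0 := by
    rw [← nb_eq B (af T)]
    exact h1
  exact h2.mono fun x hx hRx => hx (hasNrd_one hdeg f hR hRx)

end Vale.Agent.P011.H271.Odd
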