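import Vale.Agent.P011.H271.Odd.TopFF
import Vale.Agent.P011.H167.E13

/-!
**Function fields: the commutators, for the degrees which are not divisible by the characteristic.**
-/

open Module Filter Topology
open scoped commutatorElement

set_option linter.unusedSectionVars false
set_option linter.style.haveILetI false

namespace Vale.Agent.P011.H271.Odd

open Vale.Agent.P011.H738 Vale.Agent.P011.H271 Vale.Agent.P011.H698
open Vale.Agent.P011.H496.Spl (SplAt)

variable {k K D Ω : Type} [Field k] [Field K] [StarRing K] [DivisionRing D] [StarRing D]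
  [Algebra k K] [Algebra k D] [Algebra K D] [IsScalarTower k K D] [StarModule K D] {n N : ℕ}
  [Field Ω] [Algebra K Ω]

/-- From the form in terms of the groups. -/
theorem modE_of (f : D →ₐ[K] Matrix (Fin n) (Fin n) Ω) (B : Basis (Fin N) k D)
    {T : Finset (Place k)}
    (h : ∀ Q H : Subgroup (SUA f), Q ≤ H → NearA k K f B H → (∀ g : SUA f, ∀ x ∈ H, ⁅g, x⁆ ∈ Q) →
      ∃ ε : ℝ, 0 < ε ∧ ∀ u w : UA D, StarF.Nr B (T : Set (Place k)) ε ((u : Dˣ) : D) →
        StarF.Nr B (T : Set (Place k)) ε ((w : Dˣ) : D) →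
        ⁅(u : Dˣ), (w : Dˣ)⁆ ∈ Q.map (SUA f).subtype) : ModE f B T := by
  intro Q H hQH hH hc
  obtain ⟨ε, hε, h1⟩ := h Q H hQH hH hc
  refine ⟨ε, hε, fun u w hu hw hu1 hw1 => ?_⟩
  exact h1 ⟨u, hu⟩ ⟨w, hw⟩ (fun v hv => hu1 v hv) (fun v hv => hw1 v hv)

/-- **The input `E`**, if the degree is not divisible by the characteristic. -/
theorem modE_cop (hk : IsGlobalFunctionField k) [GFF k] (hA : Anis k K D n) (ho : Odd n)
    (hn3 : 3 ≤ n) (hch : (n : k) ≠ 0) (f : D →ₐ[K] Matrix (Fin n) (Fin n) Ω)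
    (B : Basis (Fin N) k D) {T : Finset (Place k)} [hT : Nonempty T]
    (hTA : Adiv k K D ⊆ (T : Set (Place k))) (hTS : ∀ v, v ∉ T → SplAt K D n v) :
    ModE f B T := by
  refine modE_of f B fun Q H hQH hH hc => ?_
  obtain ⟨v, hv⟩ := hT
  obtain ⟨ε, hε, -, h2⟩ := H167.E13.e13F_near' hk hA ho hn3 hch f B T.finite_toSet ⟨v, hv⟩ hTA
    (fun v hv => hTS v (by simpa using hv)) hQH hH hc
  exact ⟨ε, hε, h2⟩

end Vale.Agent.P011.H271.Odd
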