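import Vale.Agent.P011.H271.Odd.TopFF
import Vale.Agent.P011.H95.Odd.LCx
import Vale.Agent.P011.H158.Psi.Base3
import Vale.Agent.P011.H182.Odd.Psi
import Vale.Agent.P011.H775.Odd.RepFF
import Vale.Agent.P011.H775.Odd.WuFF
import Vale.Agent.P011.H373.Odd.SyG

/-!
**Function fields: the local homomorphism.**
-/

open Module Filter Topology

set_option linter.unusedSectionVars false
set_option linter.style.haveILetI false

namespace Vale.Agent.P011.H271.Odd

open Vale.Agent.P011.H738 Vale.Agent.P011.H271 Vale.Agent.P011.H698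
open Vale.Agent.P011.H775.Top
open Vale.Agent.P011.H439 (Chr)

variable {k K D : Type} [Field k] [Field K] [StarRing K] [DivisionRing D] [StarRing D]
  [Algebra k K] [Algebra k D] [Algebra K D] [IsScalarTower k K D] [StarModule K D] {n N : ℕ}

/-- **The input `PSI` over function fields.** -/
theorem modPsi [GFF k] (hA : Anis k K D n) (hn : n ≠ 0) (ho : Odd n) (B : Basis (Fin N) k D)
    {T : Finset (Place k)} [Nonempty T] (hTK : ∀ v ∈ T, Nonempty (K →ₐ[k] v.comp))
    (hspan : letI := topD B (af T); H95.Odd.Spn D) : ModPsi K B T := by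
  have hcen := hA.central
  have hfd : FiniteDimensional K D := Module.finite_of_finrank_pos (by
    rw [hA.finrank_eq]
    positivity)
  haveI : FiniteDimensional k K := (H519.quad hA.fixed hA.star_ne).1
  haveI : Infinite k := by
    obtain ⟨v⟩ := Hey.nonempty_place k
    exact infinite_of_place v
  have hS : H961.SetG k K D := H961.anis_toG hA hn
  have hst : ∀ (c : k) (x : D), star (c • x) = c • star x := H519.star_smul_of_anis hA
  have hsalg : ∀ c : K, star (algebraMap K D c) = algebraMap K D (star c) := fun c => by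
    rw [Algebra.algebraMap_eq_smul_one, star_smul, star_one, ← Algebra.algebraMap_eq_smul_one]
  have hfix : ∀ c : k, star (algebraMap k K c) = algebraMap k K c := hS.star_algebraMap
  intro E _ W ch hc
  letI := topD B (af T)
  haveI := isTopologicalDivisionRing B (af T)
  haveI := t2 B (af T)
  haveI := H775.Top.continuousStar B (af T) hst
  haveI := H775.Top.nonarchimedeanAddGroup B (af T) (af_na T)
  letI : TopologicalSpace K := topI K (topD B (af T))
  haveI : IsTopologicalDivisionRing K := topI_isTopologicalDivisionRing _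
  haveI : T2Space K := topI_t2 _
  haveI : ContinuousStar K := topI_continuousStar _ hsalg
  have hcont : Continuous (algebraMap K D) := topI_continuous _
  have hSmK : H95.Odd.SmK K := fun O hO S => instF_norm (D := D) B T hfix O hO S
  obtain ⟨κ, hκ⟩ := hA.star_ne
  have hinf : {x : K | star x = x}.Infinite :=
    (Set.infinite_range_of_injective (algebraMap k K).injective).mono (by
      rintro _ ⟨c, rfl⟩
      exact hfix c)
  have hB' : ∀ i, Continuous fun x : D => (finBasis K D).repr x i := by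
    intro i
    rw [(topI_inducing (F := K) (topD B (af T))).continuous_iff]
    let Λ : D →ₗ[k] D := ((Algebra.linearMap K D).restrictScalars k).comp
      (((finBasis K D).coord i).restrictScalars k)
    exact continuous_lin B B (af T) Λ
  obtain ⟨C, hC1, hC2⟩ := H158.Psi.lcd_of_lc (W := W) hκ hc hcont (finBasis K D) hB' (by
    obtain ⟨m, hm⟩ : ∃ m, finrank K D = m + 1 :=
      ⟨finrank K D - 1, (Nat.succ_pred_eq_of_pos finrank_pos).symm⟩
    have h1 : H95.Odd.LCp K W ch (finrank K D) := by
      rw [hm]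
      exact H95.Odd.lc_all hcont hspan hSmK ⟨κ, hκ⟩ hinf hc m
    have h2 := h1 1 (H158.Psi.cf K (algebraMap K D κ)) (H158.Psi.i1 (algebraMap K D κ))
      (H158.Psi.i1 1) (H158.Psi.cop_base hκ) (H158.Psi.dm_base hκ hc)
    exact h2)
  have hsp : H373.Odd.Spt K D := H775.Top.spt_ff B T hS hTK
  have hnd : H373.Odd.Nd K D := nd_ff B T hfix
  have hwu : H373.Odd.WU D := H775.Top.wu_ff B T hS hA.finrank_eq
  obtain ⟨Ψ, h1, h2⟩ := H182.Odd.exists_psi_univ hsalg hc ⟨hκ, hC1, hC2⟩
    (fun V hV V1 hV1 => by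
      obtain ⟨V', hV', h⟩ := H373.Odd.rep_zero hsalg hwu hsp hnd hV hV1
      refine ⟨V', hV', fun s hs hsy => ?_⟩
      obtain ⟨t, y, h1, h2, -, h3, h4, h5⟩ := h s hs hsy
      exact ⟨t, y, h1, h2, h3, h4, h5⟩)
    (fun V hV => by
      obtain ⟨V', hV', h⟩ := H373.Odd.rep_one hsalg hwu hsp hV
      refine ⟨V', hV', fun s hs hsy => ?_⟩
      obtain ⟨t, y, h1, h2, -, h3, h4, h5⟩ := h s hs hsy
      exact ⟨t, y, h1, h2, h3, h4, h5⟩)
    (fun s hs h0 => H373.Odd.sy_ffG hS hA.finrank_eq ho hs h0)
  refine ⟨Ψ, ?_, h2⟩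
  obtain ⟨V1, hV1, V2, hV2, h3⟩ := mem_prod_iff.mp h1
  exact ⟨V1 ∩ V2, inter_mem hV1 hV2, fun g hg h hh => h3 (Set.mk_mem_prod hg.1 hh.2)⟩

end Vale.Agent.P011.H271.Odd
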