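import Vale.Agent.P011.H775.Odd.TSetFF
import Vale.Agent.P011.H496.Spl.SplG
import Vale.Agent.P011.H271.StarF

/-!
**Function fields, every characteristic: a finite nonempty set of places, all split in the centre,
outside of which the algebra is split.**
-/

open Module Topology Filter

set_option linter.unusedSectionVars false

namespace Vale.Agent.P011.H271.Odd

open Vale.Agent.P011.H738 Vale.Agent.P011.H271 Vale.Agent.P011.H698 Vale.Agent.P011.H961
open Vale.Agent.P011.W (Spl)
open Vale.Agent.P011.H496.Spl (SplAt)

/-- The completion maps to every complete field with the same absolute value. -/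
theorem exists_compHom {k : Type} [Field k] (v : Place k) {L : Type} [NormedField L]
    [CompleteSpace L] (φ : k →+* L) (hφ : ∀ c : k, ‖φ c‖ = v.abv c) :
    ∃ e : v.comp →+* L, ∀ c : k, e (algebraMap k v.comp c) = φ c := by
  let s : WithAbs v.abv →+* L := φ.comp (WithAbs.equiv v.abv).toRingHom
  have hs : Continuous s := by
    refine (AddMonoidHomClass.isometry_of_norm s fun x => ?_).continuous
    exact hφ _
  exact ⟨UniformSpace.Completion.extensionHom s hs, fun c =>
    UniformSpace.Completion.extensionHom_coe s hs (WithAbs.toAbs v.abv c)⟩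

variable {k K D : Type} [Field k] [Field K] [StarRing K] [DivisionRing D] [StarRing D]
  [Algebra k K] [Algebra k D] [Algebra K D] [IsScalarTower k K D] {n : ℕ}

theorem splAt_of [GFF k] (hS : SetG k K D) (hdeg : finrank K D = n ^ 2) {v : Place k}
    (hv : ∀ ι : K →ₐ[k] v.comp, Spl D n (ι : K →+* v.comp)) : SplAt K D n v := by
  intro L _ _ _ φ hφ
  obtain ⟨e, he⟩ := exists_compHom v (φ.comp (algebraMap k K)) hφ
  have hspl : Spl D n φ := by
    by_cases h : IsEmpty (K →ₐ[k] v.comp)
    · exact H279.Art.spl_nonsplitG hS hdeg h φ e he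
    · rw [not_isEmpty_iff] at h
      obtain ⟨ι⟩ := h
      let _ : Algebra k L := (φ.comp (algebraMap k K)).toAlgebra
      let φ' : K →ₐ[k] L := { φ with commutes' := fun c => rfl }
      let e' : v.comp →ₐ[k] L := { e with commutes' := fun c => he c }
      rcases hom_eq_or hS.fix hS.star_ne (e'.comp ι) φ' with h | h
      · have h1 : φ = e.comp (ι : K →+* v.comp) := RingHom.ext fun c => h c
        rw [h1]
        exact (hv ι).comp e
      · let σ : K →ₐ[k] K :=
          { toFun := star
            map_one' := star_one _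
            map_mul' := fun x y => by rw [star_mul, mul_comm]
            map_zero' := star_zero _
            map_add' := star_add
            commutes' := hS.star_algebraMap }
        have h1 : φ = e.comp ((ι.comp σ : K →ₐ[k] v.comp) : K →+* v.comp) :=
          RingHom.ext fun c => h c
        rw [h1]
        exact (hv _).comp e
  obtain ⟨g, hg⟩ := hspl
  exact ⟨g, fun c => by
    rw [hg, Matrix.algebraMap_eq_diagonal]
    rfl⟩

/-- A place outside which the algebra is split is not of division type. -/
theorem notMem_adiv_of_splAt [GFF k] [StarModule K D] (hA : Anis k K D n) (hn : 1 < n) {v : Place k}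
    (h : SplAt K D n v) : v ∉ Adiv k K D := by
  intro hv
  obtain ⟨φ, -⟩ := id hv
  let _ := nnfPlace v
  obtain ⟨g, hg⟩ := h v.comp (φ : K →+* v.comp) (fun c => by
    change ‖φ (algebraMap k K c)‖ = _
    rw [φ.commutes, norm_alg])
  exact notMem_Adiv hA hn hg hv

/-- **The set of places.** -/
theorem exists_TG [GFF k] [StarModule K D] (hA : Anis k K D n) (hn : 2 ≤ n) :
    ∃ T : Finset (Place k), T.Nonempty ∧ (∀ v ∈ T, Nonempty (K →ₐ[k] v.comp)) ∧
      Adiv k K D ⊆ (T : Set (Place k)) ∧ ∀ v, v ∉ T → SplAt K D n v := by
  have hS : SetG k K D := anis_toG hA (by omega)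
  obtain ⟨T, h1, h2, h3⟩ := H775.Top.exists_TF hS hn hA.finrank_eq
  have h4 : ∀ v, v ∉ T → SplAt K D n v := fun v hv => splAt_of hS hA.finrank_eq (h3 v hv)
  refine ⟨T, h1, h2, fun v hv => ?_, h4⟩
  by_contra hvT
  exact notMem_adiv_of_splAt hA (by omega) (h4 v (fun h => hvT (Finset.mem_coe.mpr h))) hv

end Vale.Agent.P011.H271.Odd
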