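import Vale.Agent.P011.H271.Odd.SkelF
import Vale.Agent.P011.H271.Odd.PsiF
import Vale.Agent.P011.H271.Odd.ModEF
import Vale.Agent.P011.H271.Odd.RWB
import Vale.Agent.P011.H271.Odd.TSet
import Vale.Agent.P011.H192.Span.Nhd

/-!
**Function fields, every characteristic: the solvable step in odd degree, assembly.**
-/

open Module Filter Topology
open scoped commutatorElement

set_option linter.unusedSectionVars false
set_option linter.style.haveILetI false

namespace Vale.Agent.P011.H271.Odd

open Vale.Agent.P011.H738 Vale.Agent.P011.H271 Vale.Agent.P011.H698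
open Vale.Agent.P011.H775.Top
open Vale.Agent.P011.H496.Spl (SplAt)

/-- The setting of the modules: the set of places. -/
structure TG (k K D : Type) [Field k] [Field K] [StarRing K] [DivisionRing D] [StarRing D]
    [Algebra k K] [Algebra k D] [Algebra K D] [IsScalarTower k K D] (n : ℕ)
    (T : Finset (Place k)) : Prop where
  emb : ∀ v ∈ T, Nonempty (K →ₐ[k] v.comp)
  adiv : Adiv k K D ⊆ (T : Set (Place k))
  spl : ∀ v, v ∉ T → SplAt K D n v

/-- **`E` in degree `n`**, when the characteristic divides the degree. -/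
def ModEAll (n : ℕ) : Prop :=
  ∀ (k K D : Type) [Field k] [Field K] [StarRing K] [DivisionRing D] [StarRing D] [Algebra k K]
    [Algebra k D] [Algebra K D] [IsScalarTower k K D] [StarModule K D],
    IsGlobalFunctionField k → Anis k K D n → (n : k) = 0 →
    ∀ (Ω : Type) [Field Ω] [Algebra K Ω] (f : D →ₐ[K] Matrix (Fin n) (Fin n) Ω) (N : ℕ)
      (B : Basis (Fin N) k D) (T : Finset (Place k)) [Nonempty T], TG k K D n T → ModE f B T

/-- **`RW` in degree `n`**, for the primes different from the characteristic. -/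
def ModRWSep (n : ℕ) : Prop :=
  ∀ (k K D : Type) [Field k] [Field K] [StarRing K] [DivisionRing D] [StarRing D] [Algebra k K]
    [Algebra k D] [Algebra K D] [IsScalarTower k K D] [StarModule K D],
    IsGlobalFunctionField k → Anis k K D n →
    ∀ (Ω : Type) [Field Ω] [Algebra K Ω] (f : D →ₐ[K] Matrix (Fin n) (Fin n) Ω) (N : ℕ)
      (B : Basis (Fin N) k D) (T : Finset (Place k)) [Nonempty T], TG k K D n T →
      ∀ R : D →* K, (∀ x, (f x).det = algebraMap K Ω (R x)) →
        ∀ l : ℕ, l.Prime → l ∣ n → (l : k) ≠ 0 → ModRW f B T R l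

/-- **`RW` in degree `n`**, for the characteristic. -/
def ModRWIns (n : ℕ) : Prop :=
  ∀ (k K D : Type) [Field k] [Field K] [StarRing K] [DivisionRing D] [StarRing D] [Algebra k K]
    [Algebra k D] [Algebra K D] [IsScalarTower k K D] [StarModule K D],
    IsGlobalFunctionField k → Anis k K D n →
    ∀ (Ω : Type) [Field Ω] [Algebra K Ω] (f : D →ₐ[K] Matrix (Fin n) (Fin n) Ω) (N : ℕ)
      (B : Basis (Fin N) k D) (T : Finset (Place k)) [Nonempty T], TG k K D n T →
      ∀ R : D →* K, (∀ x, (f x).det = algebraMap K Ω (R x)) →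
        ∀ l : ℕ, l.Prime → l ∣ n → (l : k) = 0 → ModRW f B T R l

variable {k K D Ω : Type} [Field k] [Field K] [StarRing K] [DivisionRing D] [StarRing D]
  [Algebra k K] [Algebra k D] [Algebra K D] [IsScalarTower k K D] [StarModule K D] {n N : ℕ}
  [Field Ω] [Algebra K Ω]

/-- **The solvable step in odd degree over function fields**, from `E` and `RW`. -/
theorem solvAtF_of (hk : IsGlobalFunctionField k) (hA : Anis k K D n) (hn : 3 ≤ n)
    (ho : Odd n) (f : D →ₐ[K] Matrix (Fin n) (Fin n) Ω) (B : Basis (Fin N) k D)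
    (hE : (n : k) = 0 → ∀ (T : Finset (Place k)) [Nonempty T], TG k K D n T → ModE f B T)
    (hRW : ∀ (T : Finset (Place k)) [Nonempty T], TG k K D n T → ∀ R : D →* K,
      (∀ x, (f x).det = algebraMap K Ω (R x)) → ∀ l : ℕ, l.Prime → l ∣ n → ModRW f B T R l) :
    H305.SolvAtF k K f B := by
  have hgff := gff_of_isGlobal hk
  have hcen := hA.central
  have hfd : FiniteDimensional K D := Module.finite_of_finrank_pos (by
    rw [hA.finrank_eq]
    positivity)
  haveI : Infinite K := by
    obtain ⟨v⟩ := Hey.nonempty_place k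
    have := infinite_of_place v
    exact Infinite.of_injective _ (algebraMap k K).injective
  have hsalg : ∀ c : K, star (algebraMap K D c) = algebraMap K D (star c) := fun c => by
    rw [Algebra.algebraMap_eq_smul_one, star_smul, star_one, ← Algebra.algebraMap_eq_smul_one]
  obtain ⟨T, hT0, hT1, hT2, hT3⟩ := exists_TG hA (by omega)
  obtain ⟨v0, hv0⟩ := hT0
  haveI : Nonempty T := ⟨⟨v0, hv0⟩⟩
  have hTG : TG k K D n T := ⟨hT1, hT2, hT3⟩
  obtain ⟨R, -, -, hRdet⟩ := H327.TN.exists_rn (n := n) hA.finrank_eq hsalg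
  have hR : ∀ x, (f x).det = algebraMap K Ω (R x) := hRdet Ω f
  refine solvAtF_skel hk hA hn ho f B hT2 hT3 hR ?_ ?_ (hRW T hTG R hR)
  · by_cases h0 : (n : k) = 0
    · exact hE h0 T hTG
    · exact modE_cop hk hA ho hn h0 f B hT2 hT3
  · exact modPsi hA (by omega) ho B hT1 (H192.Span.hspan_ff hk hA hn f B hT3)

/-- **The solvable step in the odd degree `n`** over all global function fields. -/
theorem solvG_of (hn : 3 ≤ n) (ho : Odd n) (hE : ModEAll n) (hR1 : ModRWSep n)
    (hR2 : ModRWIns n) :
    ∀ (k K D : Type) [Field k] [Field K] [StarRing K] [DivisionRing D] [StarRing D] [Algebra k K]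
      [Algebra k D] [Algebra K D] [IsScalarTower k K D] [StarModule K D],
      IsGlobalFunctionField k → Anis k K D n →
      ∀ (Ω : Type) [Field Ω] [Algebra K Ω] (f : D →ₐ[K] Matrix (Fin n) (Fin n) Ω) (N : ℕ)
        (B : Basis (Fin N) k D), H305.SolvAtF k K f B := by
  intro k K D _ _ _ _ _ _ _ _ _ _ hk hA Ω _ _ f N B
  refine solvAtF_of hk hA hn ho f B (fun h0 T _ hT => hE k K D hk hA h0 Ω f N B T hT)
    fun T _ hT R hR l hl hln => ?_
  by_cases h : (l : k) = 0
  · exact hR2 k K D hk hA Ω f N B T hT R hR l hl hln h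
  · exact hR1 k K D hk hA Ω f N B T hT R hR l hl hln h

/-- **The solvable step**, if the characteristic does not divide the degree. -/
theorem solvAtF_cop (hk : IsGlobalFunctionField k) (hA : Anis k K D n) (hn : 3 ≤ n)
    (ho : Odd n) (hch : (n : k) ≠ 0) (hR1 : ModRWSep n)
    (f : D →ₐ[K] Matrix (Fin n) (Fin n) Ω) (B : Basis (Fin N) k D) :
    H305.SolvAtF k K f B := by
  refine solvAtF_of hk hA hn ho f B (fun h0 => absurd h0 hch) fun T _ hT R hR l hl hln => ?_
  refine hR1 k K D hk hA Ω f N B T hT R hR l hl hln fun h => hch ?_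
  obtain ⟨m, rfl⟩ := hln
  rw [Nat.cast_mul, h, zero_mul]

end Vale.Agent.P011.H271.Odd
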