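import Vale.Agent.P011.H439.State

/-!
**The character of the small unitary elements.**  `D` is a topological division ring with an
involution over a field `K` with an involution, `Q` is a group of units of `D` which contains the
commutators of the small unitary elements. Independent of the base field.
-/

open Filter Topology
open scoped commutatorElement

set_option linter.unusedSectionVars false

namespace Vale.Agent.P011.H271.Odd

open Vale.Agent.P011.H439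

variable {K D : Type} [Field K] [StarRing K] [DivisionRing D] [StarRing D] [Algebra K D]
  [StarModule K D] [TopologicalSpace D]

variable (D) in
/-- There are arbitrarily small groups of unitary elements which are neighbourhoods of one. -/
def SmallG : Prop :=
  ∀ O ∈ 𝓝 (1 : D), ∃ W : Set D, W ⊆ O ∧ (∀ u ∈ W, u * star u = 1) ∧
    (∀ u ∈ W, ∀ v ∈ W, u * v ∈ W) ∧ (∀ u ∈ W, star u ∈ W) ∧
    ∀ᶠ x in 𝓝 (1 : D), x * star x = 1 → x ∈ W

theorem star_alg (a : K) : star (algebraMap K D a) = algebraMap K D (star a) := by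
  rw [Algebra.algebraMap_eq_smul_one, Algebra.algebraMap_eq_smul_one, star_smul, star_one]

theorem star_mul_of {u : D} (h : u * star u = 1) : star u * u = 1 := by
  have h0 : u ≠ 0 := by rintro rfl; simp at h
  have h1 : star u = u⁻¹ := eq_inv_of_mul_eq_one_right h
  rw [h1, inv_mul_cancel₀ h0]

/-- The group of units of a set of unitary elements closed under the operations. -/
def ug (W : Set D) (h1 : (1 : D) ∈ W) (hu : ∀ u ∈ W, u * star u = 1)
    (hm : ∀ u ∈ W, ∀ v ∈ W, u * v ∈ W) (hs : ∀ u ∈ W, star u ∈ W) : Subgroup Dˣ where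
  carrier := {x | (x : D) ∈ W}
  one_mem' := h1
  mul_mem' {a b} ha hb := hm _ ha _ hb
  inv_mem' {a} ha := by
    have h3 : star (a : D) = ((a⁻¹ : Dˣ) : D) := by
      rw [← Units.mul_right_inj a, hu _ ha, Units.mul_inv]
    change ((a⁻¹ : Dˣ) : D) ∈ W
    rw [← h3]
    exact hs _ ha

variable (K D) in
/-- The central unitary elements. -/
def kg : Subgroup Dˣ where
  carrier := {x | ∃ a : K, a * star a = 1 ∧ (x : D) = algebraMap K D a}
  one_mem' := ⟨1, by rw [star_one, one_mul], by rw [Units.val_one, map_one]⟩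
  mul_mem' := by
    rintro x y ⟨a, ha, hx⟩ ⟨b, hb, hy⟩
    exact ⟨a * b, by rw [star_mul, mul_comm (star b), mul_mul_mul_comm, ha, hb, one_mul],
      by rw [Units.val_mul, hx, hy, map_mul]⟩
  inv_mem' := by
    rintro x ⟨a, ha, hx⟩
    refine ⟨star a, by rw [star_star, mul_comm]; exact ha, ?_⟩
    rw [← Units.mul_right_inj x, Units.mul_inv, hx, ← map_mul, ha, map_one]

theorem kg_comm {z : Dˣ} (hz : z ∈ kg K D) (x : Dˣ) : x * z = z * x := by
  obtain ⟨a, -, ha⟩ := hz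
  refine Units.ext ?_
  rw [Units.val_mul, Units.val_mul, ha]
  exact (Algebra.commutes a (x : D)).symm

instance kg_normal : (kg K D).Normal := ⟨fun z hz g => by
  rw [kg_comm hz g, mul_inv_cancel_right]
  exact hz⟩

/-- **The character.** -/
theorem exists_chr (hsm : SmallG D) (Q : Subgroup Dˣ) {O : Set D} (hO : O ∈ 𝓝 (1 : D))
    (hQ : ∀ u w : Dˣ, (u : D) * star (u : D) = 1 → (w : D) * star (w : D) = 1 → (u : D) ∈ O →
      (w : D) ∈ O → ⁅u, w⁆ ∈ Q) :
    ∃ (E : Type) (_ : AddCommGroup E) (W W1 : Set D) (ch : D → E), Chr K W ch ∧ W1 ⊆ W ∧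
      W1 ⊆ O ∧ (∀ u ∈ W1, u * star u = 1) ∧ (∀ u ∈ W1, ∀ v ∈ W1, u * v ∈ W1) ∧
      (∀ u ∈ W1, star u ∈ W1) ∧ (∀ᶠ x in 𝓝 (1 : D), x * star x = 1 → x ∈ W1) ∧
      (∀ q ∈ Q, (q : D) ∈ W1 → ch q = 0) ∧
      (∀ u : Dˣ, (u : D) ∈ W → ch u = 0 → ∃ z ∈ kg K D, ∃ q ∈ Q, (q : D) ∈ W1 ∧ u = q * z) := by
  classical
  obtain ⟨W1, hW1O, hW1u, hW1m, hW1s, hW1n⟩ := hsm O hO
  have h1 : (1 : D) ∈ W1 := hW1n.self_of_nhds (by rw [star_one, one_mul])
  let U1 : Subgroup Dˣ := ug W1 h1 hW1u hW1m hW1s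
  have hU1 : ∀ x : Dˣ, x ∈ U1 ↔ (x : D) ∈ W1 := fun x => Iff.rfl
  let S : Subgroup Dˣ := U1 ⊔ kg K D
  let M : Subgroup Dˣ := (Q ⊓ U1) ⊔ kg K D
  have hMS : M ≤ S := sup_le_sup_right inf_le_right _
  have hSmem : ∀ x, x ∈ S ↔ ∃ y ∈ U1, ∃ z ∈ kg K D, y * z = x := fun x =>
    Subgroup.mem_sup_of_normal_right
  have hMmem : ∀ x, x ∈ M ↔ ∃ y ∈ Q ⊓ U1, ∃ z ∈ kg K D, y * z = x := fun x =>
    Subgroup.mem_sup_of_normal_right
  have hcomm : ∀ x ∈ S, ∀ y ∈ S, ⁅x, y⁆ ∈ M := by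
    intro x hx y hy
    obtain ⟨u, hu, a, ha, rfl⟩ := (hSmem x).mp hx
    obtain ⟨w, hw, b, hb, rfl⟩ := (hSmem y).mp hy
    have e : ⁅u * a, w * b⁆ = ⁅u, w⁆ := by
      have ha' : ∀ x, x * a = a * x := kg_comm ha
      have hb' : ∀ x, x * b = b * x := kg_comm hb
      rw [commutatorElement_def, commutatorElement_def, mul_inv_rev, mul_inv_rev]
      have e1 : u * a * (w * b) * (a⁻¹ * u⁻¹) * (b⁻¹ * w⁻¹) =
          u * (a * w) * b * a⁻¹ * u⁻¹ * b⁻¹ * w⁻¹ := by group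
      rw [e1, ← ha' w]
      have e2 : u * (w * a) * b * a⁻¹ * u⁻¹ * b⁻¹ * w⁻¹ =
          u * w * (a * b * a⁻¹) * u⁻¹ * b⁻¹ * w⁻¹ := by group
      rw [e2, hb' a, mul_inv_cancel_right]
      have e3 : u * w * b * u⁻¹ * b⁻¹ * w⁻¹ = u * w * (b * u⁻¹) * b⁻¹ * w⁻¹ := by group
      rw [e3, ← hb' u⁻¹]
      group
    rw [e]
    have hc : ⁅u, w⁆ ∈ U1 := by
      rw [commutatorElement_def]
      exact U1.mul_mem (U1.mul_mem (U1.mul_mem hu hw) (U1.inv_mem hu)) (U1.inv_mem hw)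
    exact Subgroup.mem_sup_left ⟨hQ u w (hW1u _ hu) (hW1u _ hw) (hW1O hu) (hW1O hw), hc⟩
  have hnorm : (M.subgroupOf S).Normal := ⟨fun m hm s => by
    rw [Subgroup.mem_subgroupOf] at hm ⊢
    have h2 := hcomm s s.2 m (hMS hm)
    have h3 : ((s * m * s⁻¹ : S) : Dˣ) = ⁅(s : Dˣ), (m : Dˣ)⁆ * (m : Dˣ) := by
      rw [commutatorElement_def, Subgroup.coe_mul, Subgroup.coe_mul, Subgroup.coe_inv]
      group
    rw [h3]
    exact M.mul_mem h2 hm⟩
  let E0 := S ⧸ M.subgroupOf S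
  have hE0 : ∀ a b : E0, a * b = b * a := by
    intro a b
    obtain ⟨x, rfl⟩ := QuotientGroup.mk_surjective a
    obtain ⟨y, rfl⟩ := QuotientGroup.mk_surjective b
    rw [← QuotientGroup.mk_mul, ← QuotientGroup.mk_mul, QuotientGroup.eq,
      Subgroup.mem_subgroupOf]
    have h3 : (((x * y)⁻¹ * (y * x) : S) : Dˣ) = ⁅((y⁻¹ : S) : Dˣ), ((x⁻¹ : S) : Dˣ)⁆ := by
      rw [commutatorElement_def, Subgroup.coe_mul, Subgroup.coe_inv, Subgroup.coe_mul,
        Subgroup.coe_mul, Subgroup.coe_inv, Subgroup.coe_inv]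
      group
    rw [h3]
    exact hcomm _ (y⁻¹).2 _ (x⁻¹).2
  let instE : CommGroup E0 := { (inferInstance : Group E0) with mul_comm := hE0 }
  let ch : D → Additive E0 := fun x =>
    if h : ∃ u : S, ((u : Dˣ) : D) = x then Additive.ofMul (QuotientGroup.mk h.choose : E0) else 0
  have hch : ∀ u : S, ch ((u : Dˣ) : D) = Additive.ofMul (QuotientGroup.mk u : E0) := by
    intro u
    have h : ∃ w : S, ((w : Dˣ) : D) = ((u : Dˣ) : D) := ⟨u, rfl⟩
    have h2 : h.choose = u := Subtype.ext (Units.ext h.choose_spec)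
    change (if h : ∃ w : S, ((w : Dˣ) : D) = ((u : Dˣ) : D) then
      Additive.ofMul (QuotientGroup.mk h.choose : E0) else 0) = _
    rw [dif_pos h, h2]
  have hSun : ∀ u : S, ((u : Dˣ) : D) * star ((u : Dˣ) : D) = 1 := by
    rintro ⟨x, hx⟩
    obtain ⟨u, hu, z, ⟨a, ha, hz⟩, rfl⟩ := (hSmem x).mp hx
    change ((u * z : Dˣ) : D) * star ((u * z : Dˣ) : D) = 1
    have h2 : (u : D) * star (u : D) = 1 := hW1u _ hu
    rw [Units.val_mul, hz, star_mul, star_alg, mul_assoc, ← mul_assoc (algebraMap K D a),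
      ← map_mul, ha, map_one, one_mul, h2]
  have hW1W : W1 ⊆ {x | ∃ u : S, ((u : Dˣ) : D) = x} := by
    intro x hx
    have hx0 : x ≠ 0 := by
      rintro rfl
      have := hW1u _ hx
      simp at this
    exact ⟨⟨Units.mk0 x hx0, Subgroup.mem_sup_left ((hU1 _).mpr hx)⟩, rfl⟩
  refine ⟨Additive E0, inferInstance, {x | ∃ u : S, ((u : Dˣ) : D) = x}, W1, ch, ?_, hW1W, hW1O,
    hW1u, hW1m, hW1s, hW1n, ?_, ?_⟩
  · constructor
    · rintro _ ⟨u, rfl⟩
      exact hSun u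
    · rintro _ ⟨u, rfl⟩ _ ⟨v, rfl⟩
      exact ⟨u * v, by rw [Subgroup.coe_mul, Units.val_mul]⟩
    · rintro _ ⟨u, rfl⟩
      refine ⟨u⁻¹, ?_⟩
      rw [Subgroup.coe_inv, ← Units.mul_right_inj (u : Dˣ), Units.mul_inv, hSun u]
    · rintro _ ⟨u, rfl⟩ _ ⟨v, rfl⟩
      rw [hch, hch, ← ofMul_mul, ← QuotientGroup.mk_mul, ← hch, Subgroup.coe_mul, Units.val_mul]
    · filter_upwards [hW1n] with x hx hxu
      have hx0 : x ≠ 0 := by rintro rfl; simp at hxu
      exact ⟨⟨Units.mk0 x hx0, Subgroup.mem_sup_left ((hU1 _).mpr (hx hxu))⟩, rfl⟩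
    · intro a ha
      have ha0 : algebraMap K D a ≠ 0 := by
        intro h
        rw [map_eq_zero] at h
        rw [h, zero_mul] at ha
        exact zero_ne_one ha
      have hk : Units.mk0 (algebraMap K D a) ha0 ∈ kg K D := ⟨a, ha, rfl⟩
      refine ⟨⟨⟨Units.mk0 _ ha0, Subgroup.mem_sup_right hk⟩, rfl⟩, ?_⟩
      have h2 := hch ⟨Units.mk0 _ ha0, Subgroup.mem_sup_right hk⟩
      change ch (algebraMap K D a) = _ at h2
      rw [h2, ofMul_eq_zero, QuotientGroup.eq_one_iff, Subgroup.mem_subgroupOf]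
      exact Subgroup.mem_sup_right hk
  · intro q hq hqW1
    have hqS : q ∈ S := Subgroup.mem_sup_left ((hU1 _).mpr hqW1)
    have h2 := hch ⟨q, hqS⟩
    change ch (q : D) = _ at h2
    rw [h2, ofMul_eq_zero, QuotientGroup.eq_one_iff, Subgroup.mem_subgroupOf]
    exact Subgroup.mem_sup_left ⟨hq, hqW1⟩
  · rintro u ⟨w, hw⟩ hu
    have hwu : (w : Dˣ) = u := Units.ext hw
    rw [← hw, hch, ofMul_eq_zero, QuotientGroup.eq_one_iff, Subgroup.mem_subgroupOf] at hu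
    obtain ⟨q, ⟨hq, hqU⟩, z, hz, h3⟩ := (hMmem _).mp hu
    exact ⟨z, hz, q, hq, hqU, by rw [← hwu, h3]⟩

end Vale.Agent.P011.H271.Odd
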