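import Vale.Agent.P011.H271.Odd.EndT

/-!
**The character with values in an `l`-primary group.**
-/

open Filter Topology Module
open scoped commutatorElement

set_option linter.unusedSectionVars false

namespace Vale.Agent.P011.H271.Odd

open Vale.Agent.P011.H439

variable {K D : Type} [Field K] [StarRing K] [DivisionRing D] [StarRing D] [Algebra K D]
  [StarModule K D] [TopologicalSpace D] [IsTopologicalRing D]

/-- The data of the character. -/
structure ChrD (K : Type) {D E : Type} [Field K] [StarRing K] [DivisionRing D] [StarRing D]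
    [Algebra K D] [TopologicalSpace D] [AddCommGroup E] (N : D →* K) (Q : Subgroup Dˣ)
    (W1 W : Set D) (ch : D → E) : Prop where
  chr : Chr K W ch
  le : W1 ⊆ W
  mul : ∀ u ∈ W1, ∀ v ∈ W1, u * v ∈ W1
  inv : ∀ u ∈ W1, star u ∈ W1
  near : ∀ᶠ x in 𝓝 (1 : D), x * star x = 1 → x ∈ W1
  ker : ∀ q ∈ Q, (q : D) ∈ W1 → ch q = 0
  zero : (∀ᶠ u in 𝓝 (1 : D), u * star u = 1 → N u = 1 → ch u = 0) →
    ∀ᶠ u in 𝓝 (1 : D), ∀ x : Dˣ, (x : D) = u → u * star u = 1 → N u = 1 → x ∈ Q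

/-- **The character.** -/
theorem exists_chrD (hsm : SmallG D) {N : D →* K} {n l : ℕ} (hl : l.Prime) (hn : n ≠ 0)
    (hNa : ∀ a : K, N (algebraMap K D a) = a ^ n)
    (hNs : ∀ x : D, N (star x) = star (N x))
    (hNc : Tendsto (fun x : D => algebraMap K D (N x)⁻¹) (𝓝 1) (𝓝 1))
    (hroot : ∀ᶠ x in 𝓝 (1 : D), ∀ a : K, algebraMap K D a = x → a ^ n = 1 → a = 1)
    (Q : Subgroup Dˣ) (hQ : ∀ q ∈ Q, (q : D) * star (q : D) = 1 ∧ N (q : D) = 1)
    {O : Set D} (hO : O ∈ 𝓝 (1 : D))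
    (hQc : ∀ u w : Dˣ, (u : D) * star (u : D) = 1 → (w : D) * star (w : D) = 1 → (u : D) ∈ O →
      (w : D) ∈ O → ⁅u, w⁆ ∈ Q)
    (hQl : ∀ᶠ u in 𝓝 (1 : D), ∀ x : Dˣ, (x : D) = u → u * star u = 1 → N u = 1 → x ^ l ∈ Q) :
    ∃ (E : Type) (_ : AddCommGroup E) (e : ℕ) (W1 W : Set D) (ch : D → E),
      (∀ x : E, l ^ e • x = 0) ∧ ChrD K N Q W1 W ch := by
  classical
  obtain ⟨E0, iE0, W0, V, ch0, hc0, hVW, hVO, hVu, hVm, hVs, hVn, hq0, hker⟩ :=
    exists_chr (K := K) hsm Q (inter_mem hO hroot) (fun u w h1 h2 h3 h4 =>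
      hQc u w h1 h2 h3.1 h4.1)
  have hV1 : (1 : D) ∈ V := hVn.self_of_nhds (by rw [star_one, one_mul])
  have hlc := smul_ch (N := N) hc0 hVW hVm hVn hq0 hQl
  -- the small group
  have hpw : Tendsto (fun x : D => x ^ n * algebraMap K D (N x)⁻¹) (𝓝 1) (𝓝 1) := by
    have h1 : Tendsto (fun x : D => x ^ n * algebraMap K D (N x)⁻¹) (𝓝 1) (𝓝 (1 ^ n * 1)) :=
      (tendsto_id.pow n).mul hNc
    rwa [one_pow, one_mul] at h1
  obtain ⟨W1, hW1O, hW1u, hW1m, hW1s, hW1n⟩ := hsm _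
    (inter_mem (inter_mem hVn hlc) (hpw.eventually (inter_mem hVn hlc)))
  have hW11 : (1 : D) ∈ W1 := hW1n.self_of_nhds (by rw [star_one, one_mul])
  have hW1V : W1 ⊆ V := fun u hu => (hW1O hu).1.1 (hW1u u hu)
  have hchW1 : ∀ u ∈ W1, (n * l) • ch0 u = 0 := by
    intro u hu
    have huu := hW1u u hu
    have hN1 : N u * star (N u) = 1 := by rw [← hNs, ← map_mul, huu, map_one]
    have hN1' : (N u)⁻¹ * star ((N u)⁻¹) = 1 := by
      rw [star_inv₀, ← mul_inv, hN1, inv_one]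
    have hN0 : N u ≠ 0 := by
      intro h
      rw [h, zero_mul] at hN1
      exact zero_ne_one hN1
    set s : D := u ^ n * algebraMap K D (N u)⁻¹ with hs
    have hupow := chr_pow hc0 (hVW (hW1V hu)) n
    obtain ⟨hsc, hsc0⟩ := hc0.scal _ hN1'
    have hsW : s ∈ W0 := hc0.mul _ hupow.1 _ hsc
    have hsu : s * star s = 1 := hc0.unit _ hsW
    have hsN : N s = 1 := by
      rw [hs, map_mul, map_pow, hNa, inv_pow, mul_inv_cancel₀ (pow_ne_zero _ hN0)]
    have h2 := (hW1O hu).2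
    have h3 : l • ch0 s = 0 := h2.2 hsu hsN
    have h4 : ch0 s = n • ch0 u := by
      rw [hs, hc0.map _ hupow.1 _ hsc, hupow.2, hsc0, add_zero]
    rw [mul_nsmul, ← h4, h3]
  -- the exponents
  obtain ⟨e, m', hm', hml⟩ := Nat.exists_eq_pow_mul_and_not_dvd (n := n * l)
    (mul_ne_zero hn hl.ne_zero) l hl.ne_one
  have hcop : Nat.Coprime m' l := ((Nat.Prime.coprime_iff_not_dvd hl).mpr hm').symm
  -- the new group
  let E1 : AddSubgroup E0 :=
    { carrier := {x | l ^ e • x = 0}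
      add_mem' := fun {x y} hx hy => by
        change l ^ e • (x + y) = 0
        rw [smul_add, show l ^ e • x = 0 from hx, show l ^ e • y = 0 from hy, add_zero]
      zero_mem' := smul_zero _
      neg_mem' := fun {x} hx => by
        change l ^ e • (-x) = 0
        rw [smul_neg, show l ^ e • x = 0 from hx, neg_zero] }
  have hE1 : ∀ x : E1, l ^ e • x = 0 := fun x => Subtype.ext x.2
  let W : Set D := {x | ∃ a : K, a * star a = 1 ∧ ∃ u ∈ W1, x = algebraMap K D a * u}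
  have hWW0 : ∀ x ∈ W, x ∈ W0 := by
    rintro _ ⟨a, ha, u, hu, rfl⟩
    exact hc0.mul _ (hc0.scal a ha).1 _ (hVW (hW1V hu))
  have hWch : ∀ a : K, a * star a = 1 → ∀ u ∈ W1, ch0 (algebraMap K D a * u) = ch0 u := by
    intro a ha u hu
    rw [hc0.map _ (hc0.scal a ha).1 _ (hVW (hW1V hu)), (hc0.scal a ha).2, zero_add]
  have hWe : ∀ x ∈ W, l ^ e • (m' • ch0 x) = 0 := by
    rintro _ ⟨a, ha, u, hu, rfl⟩
    rw [hWch a ha u hu, ← mul_nsmul, mul_comm m', ← hml]
    exact hchW1 u hu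
  let ch : D → E1 := fun x => if h : x ∈ W then ⟨m' • ch0 x, hWe x h⟩ else 0
  have hch : ∀ x ∈ W, ((ch x : E1) : E0) = m' • ch0 x := by
    intro x hx
    change (((if h : x ∈ W then ⟨m' • ch0 x, hWe x h⟩ else 0 : E1)) : E0) = _
    rw [dif_pos hx]
  have hWmul : ∀ u ∈ W, ∀ v ∈ W, u * v ∈ W := by
    rintro _ ⟨a, ha, u, hu, rfl⟩ _ ⟨b, hb, v, hv, rfl⟩
    refine ⟨a * b, by rw [star_mul, mul_comm (star b), mul_mul_mul_comm, ha, hb, one_mul],
      u * v, hW1m _ hu _ hv, ?_⟩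
    rw [map_mul, mul_assoc, ← mul_assoc u, ← Algebra.commutes b u, mul_assoc, mul_assoc]
  have hW1W : W1 ⊆ W := fun u hu => ⟨1, by rw [star_one, one_mul], u, hu, by
    rw [map_one, one_mul]⟩
  have hchr : Chr K W ch := by
    constructor
    · exact fun u hu => hc0.unit u (hWW0 u hu)
    · exact hWmul
    · rintro _ ⟨a, ha, u, hu, rfl⟩
      refine ⟨star a, by rw [star_star, mul_comm]; exact ha, star u, hW1s u hu, ?_⟩
      rw [star_mul, star_alg, Algebra.commutes]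
    · intro u hu v hv
      refine Subtype.ext ?_
      rw [AddSubgroup.coe_add, hch _ hu, hch _ hv, hch _ (hWmul u hu v hv),
        hc0.map _ (hWW0 u hu) _ (hWW0 v hv), smul_add]
    · exact hW1n.mono fun x hx hxu => hW1W (hx hxu)
    · intro a ha
      have h1 : algebraMap K D a ∈ W := ⟨a, ha, 1, hW11, (mul_one _).symm⟩
      refine ⟨h1, Subtype.ext ?_⟩
      rw [hch _ h1, (hc0.scal a ha).2, smul_zero]
      rfl
  refine ⟨E1, inferInstance, e, W1, W, ch, hE1, hchr, hW1W, hW1m, hW1s, hW1n, ?_, ?_⟩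
  · intro q hq hqW
    refine Subtype.ext ?_
    rw [hch _ (hW1W hqW), hq0 q hq (hW1V hqW), smul_zero]
    rfl
  · intro h0
    have h1 : ∀ᶠ u in 𝓝 (1 : D), u * star u = 1 → N u = 1 → ch0 u = 0 := by
      filter_upwards [h0, hlc, hW1n] with u h2 h3 h4 hu hN
      have h5 := h2 hu hN
      have h6 : m' • ch0 u = 0 := by
        have h7 := congrArg Subtype.val h5
        rw [hch _ (hW1W (h4 hu))] at h7
        exact h7
      have h10 : addOrderOf (ch0 u) ∣ Nat.gcd m' l :=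
        Nat.dvd_gcd (addOrderOf_dvd_of_nsmul_eq_zero h6)
          (addOrderOf_dvd_of_nsmul_eq_zero (h3 hu hN))
      rw [hcop.gcd_eq_one] at h10
      have h11 := addOrderOf_dvd_iff_nsmul_eq_zero.mp h10
      rwa [one_nsmul] at h11
    exact mem_of_ch hVm hVs hVu hVW hVn (fun x hx => (hVO hx).2) hNa hQ hker h1

end Vale.Agent.P011.H271.Odd
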