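import Vale.Agent.P011.H271.Odd.RWSep

/-!
**Function fields: the solvable step in the odd degrees prime to the characteristic.**
-/

open Module

set_option linter.unusedSectionVars false

namespace Vale.Agent.P011.H271.Odd

open Vale.Agent.P011.H738

variable {k K D Ω : Type} [Field k] [Field K] [StarRing K] [DivisionRing D] [StarRing D]
  [Algebra k K] [Algebra k D] [Algebra K D] [IsScalarTower k K D] [StarModule K D] {n N : ℕ}
  [Field Ω] [Algebra K Ω]

/-- **The solvable step in the odd degrees not divisible by the characteristic**: no further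
hypothesis. -/
theorem solvAtF_odd_cop (hk : IsGlobalFunctionField k) (hA : Anis k K D n) (hn : 3 ≤ n)
    (ho : Odd n) (hch : (n : k) ≠ 0) (f : D →ₐ[K] Matrix (Fin n) (Fin n) Ω)
    (B : Basis (Fin N) k D) : H305.SolvAtF k K f B :=
  solvAtF_cop hk hA hn ho hch (modRWSep (by omega)) f B

/-- **The solvable step in odd degree in characteristic two.** -/
theorem solvAtF_odd_two (hk : IsGlobalFunctionField k) (h2 : (2 : k) = 0) (hA : Anis k K D n)
    (hn : 3 ≤ n) (ho : Odd n) (f : D →ₐ[K] Matrix (Fin n) (Fin n) Ω)
    (B : Basis (Fin N) k D) : H305.SolvAtF k K f B := by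
  refine solvAtF_odd_cop hk hA hn ho (fun h => ?_) f B
  obtain ⟨m, rfl⟩ := ho
  rw [Nat.cast_add, Nat.cast_mul, Nat.cast_ofNat, h2, zero_mul, zero_add, Nat.cast_one] at h
  exact one_ne_zero h

end Vale.Agent.P011.H271.Odd
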