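import Vale.Agent.P011.H271.Odd.Chr
import Vale.Agent.P011.H955.Odd.Hil
import Vale.Agent.P011.H97c.PsiNrd

/-!
**The end.**  From the character of the small unitary elements and the local homomorphism `Ψ` to
the openness of `Q`. Independent of the base field and of the characteristic.
-/

open Filter Topology Module
open scoped commutatorElement

set_option linter.unusedSectionVars false

namespace Vale.Agent.P011.H271.Odd

open Vale.Agent.P011.H439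

variable {K D E : Type} [Field K] [StarRing K] [DivisionRing D] [StarRing D] [Algebra K D]
  [StarModule K D] [TopologicalSpace D] [AddCommGroup E]

/-- Additive close to one. -/
def LocAdd (Ψ : D → E) : Prop :=
  ∃ V ∈ 𝓝 (1 : D), ∀ g ∈ V, ∀ h ∈ V, Ψ (g * h) = Ψ g + Ψ h

/-- The values of `Ψ` at the elements which commute with their conjugates. -/
def PsiCh (ch Ψ : D → E) : Prop :=
  ∀ᶠ g in 𝓝 (1 : D), Commute g (star g) → Ψ g = ch (star g * g⁻¹)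

/-- **The input `RW` over function fields.** -/
def RWF (N : D →* K) (l : ℕ) (Q : Subgroup Dˣ) (Ψ : D → E) : Prop :=
  ∀ O ∈ 𝓝 (1 : D), ∀ᶠ u in 𝓝 (1 : D), u * star u = 1 → N u = 1 →
    ∃ q ∈ Q, u * (q : D) ∈ O ∧ ∃ m : ℕ, Nat.Coprime m l ∧ m • Ψ (u * (q : D)) = 0

variable {W W1 : Set D} {ch Ψ : D → E} {N : D →* K} {Q : Subgroup Dˣ} {l n : ℕ}

theorem chr_pow (hc : Chr K W ch) {u : D} (hu : u ∈ W) (m : ℕ) :
    u ^ m ∈ W ∧ ch (u ^ m) = m • ch u := by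
  have h1 : (1 : D) ∈ W ∧ ch 1 = 0 := by
    have h := hc.scal 1 (by rw [star_one, one_mul])
    rwa [map_one] at h
  induction m with
  | zero => rw [pow_zero, zero_smul]; exact h1
  | succ m ih =>
      refine ⟨by rw [pow_succ]; exact hc.mul _ ih.1 _ hu, ?_⟩
      rw [pow_succ, hc.map _ ih.1 _ hu, ih.2, succ_nsmul]

theorem chr_star (hc : Chr K W ch) {u : D} (hu : u ∈ W) : ch (star u) = -ch u := by
  have h1 : ch (1 : D) = 0 := by
    have h := (hc.scal 1 (by rw [star_one, one_mul])).2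
    rwa [map_one] at h
  have h2 := hc.map _ hu _ (hc.inv _ hu)
  rw [hc.unit _ hu, h1] at h2
  exact (neg_eq_of_add_eq_zero_right h2.symm).symm

theorem pow_mem_w {W1 : Set D} (h1 : (1 : D) ∈ W1) (hm : ∀ u ∈ W1, ∀ v ∈ W1, u * v ∈ W1) {u : D}
    (hu : u ∈ W1) (m : ℕ) : u ^ m ∈ W1 := by
  induction m with
  | zero => rwa [pow_zero]
  | succ m ih => rw [pow_succ]; exact hm _ ih _ hu

/-- The `l`-th multiple of the character vanishes. -/
theorem smul_ch (hc : Chr K W ch) (hW : W1 ⊆ W) (h1m : ∀ u ∈ W1, ∀ v ∈ W1, u * v ∈ W1)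
    (h1n : ∀ᶠ x in 𝓝 (1 : D), x * star x = 1 → x ∈ W1) (hq0 : ∀ q ∈ Q, (q : D) ∈ W1 → ch q = 0)
    (hQl : ∀ᶠ u in 𝓝 (1 : D), ∀ x : Dˣ, (x : D) = u → u * star u = 1 → N u = 1 → x ^ l ∈ Q) :
    ∀ᶠ u in 𝓝 (1 : D), u * star u = 1 → N u = 1 → l • ch u = 0 := by
  filter_upwards [hQl, h1n] with u h2 h3 hu hN
  have hu0 : u ≠ 0 := by rintro rfl; simp at hu
  have h4 := h2 (Units.mk0 u hu0) rfl hu hN
  have h1 : (1 : D) ∈ W1 := h1n.self_of_nhds (by rw [star_one, one_mul])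
  have h5 : (((Units.mk0 u hu0) ^ l : Dˣ) : D) = u ^ l := by
    rw [Units.val_pow_eq_pow_val, Units.val_mk0]
  rw [← (chr_pow hc (hW (h3 hu)) l).2, ← h5]
  refine hq0 _ h4 ?_
  rw [h5]
  exact pow_mem_w h1 h1m (h3 hu) l

/-- **Odd `l`.** -/
theorem ch_zero_odd (hc : Chr K W ch) (hW : W1 ⊆ W) (h1m : ∀ u ∈ W1, ∀ v ∈ W1, u * v ∈ W1)
    (h1s : ∀ u ∈ W1, star u ∈ W1)
    (h1n : ∀ᶠ x in 𝓝 (1 : D), x * star x = 1 → x ∈ W1) (hq0 : ∀ q ∈ Q, (q : D) ∈ W1 → ch q = 0)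
    (hQ : ∀ q ∈ Q, (q : D) * star (q : D) = 1 ∧ N (q : D) = 1)
    (hQl : ∀ᶠ u in 𝓝 (1 : D), ∀ x : Dˣ, (x : D) = u → u * star u = 1 → N u = 1 → x ^ l ∈ Q)
    (hl : Odd l) (hP : PsiCh ch Ψ) (hRW : RWF N l Q Ψ) :
    ∀ᶠ u in 𝓝 (1 : D), u * star u = 1 → N u = 1 → ch u = 0 := by
  have hlc := smul_ch (N := N) hc hW h1m h1n hq0 hQl
  filter_upwards [hRW _ (inter_mem (inter_mem h1n hP) hlc), h1n] with u h2 h3 hu hN
  obtain ⟨q, hq, ⟨⟨hO1, hO2⟩, hO3⟩, m, hml, h4⟩ := h2 hu hN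
  obtain ⟨hqu, hqN⟩ := hQ q hq
  change u * (q : D) * star (u * (q : D)) = 1 → u * (q : D) ∈ W1 at hO1
  change Commute (u * (q : D)) (star (u * (q : D))) → _ at hO2
  change u * (q : D) * star (u * (q : D)) = 1 → N (u * (q : D)) = 1 → l • ch (u * (q : D)) = 0
    at hO3
  set u' := u * (q : D) with hu'
  have hun : u' * star u' = 1 := by
    rw [hu', star_mul, mul_assoc, ← mul_assoc (q : D), hqu, one_mul, hu]
  have hun' : star u' * u' = 1 := star_mul_of hun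
  have hW1' : u' ∈ W1 := hO1 hun
  have hl' := hO3 hun (by rw [hu', map_mul, hN, hqN, one_mul])
  have hcom : Commute u' (star u') := by
    change u' * star u' = star u' * u'
    rw [hun, hun']
  have h5 := hO2 hcom
  have hinv : u'⁻¹ = star u' := (eq_inv_of_mul_eq_one_right hun).symm
  rw [hinv, hc.map _ (hW (h1s _ hW1')) _ (hW (h1s _ hW1')), chr_star hc (hW hW1')] at h5
  have h6 : ch u' = 0 := by
    have h7 : (m * 2) • ch u' = 0 := by
      rw [h5, ← neg_add, smul_neg, neg_eq_zero, ← two_nsmul] at h4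
      rwa [mul_comm, mul_nsmul]
    have h9 : Nat.Coprime (m * 2) l := Nat.Coprime.mul_left hml (Nat.coprime_two_left.mpr hl)
    have h10 : addOrderOf (ch u') ∣ Nat.gcd (m * 2) l :=
      Nat.dvd_gcd (addOrderOf_dvd_of_nsmul_eq_zero h7) (addOrderOf_dvd_of_nsmul_eq_zero hl')
    rw [h9.gcd_eq_one] at h10
    have h11 := addOrderOf_dvd_iff_nsmul_eq_zero.mp h10
    rwa [one_nsmul] at h11
  have h10 : star u' * u = ((q⁻¹ : Dˣ) : D) := by
    rw [hu', star_mul, mul_assoc, star_mul_of hu, mul_one, ← Units.mul_right_inj q, hqu,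
      Units.mul_inv]
  have h11 : star u' * u ∈ W1 := h1m _ (h1s _ hW1') _ (h3 hu)
  have h12 : u = u' * (star u' * u) := by rw [← mul_assoc, hun, one_mul]
  have h13 : ch (star u' * u) = 0 := by
    rw [h10]
    exact hq0 _ (Q.inv_mem hq) (by rw [← h10]; exact h11)
  rw [h12, hc.map _ (hW hW1') _ (hW h11), h6, h13, zero_add]

/-- **`l` prime to `n`.** -/
theorem ch_zero_cop [IsTopologicalRing D] [ContinuousStar D] (hc : Chr K W ch) (hW : W1 ⊆ W)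
    (h1m : ∀ u ∈ W1, ∀ v ∈ W1, u * v ∈ W1)
    (h1n : ∀ᶠ x in 𝓝 (1 : D), x * star x = 1 → x ∈ W1) (hq0 : ∀ q ∈ Q, (q : D) ∈ W1 → ch q = 0)
    (hQl : ∀ᶠ u in 𝓝 (1 : D), ∀ x : Dˣ, (x : D) = u → u * star u = 1 → N u = 1 → x ^ l ∈ Q)
    (hln : Nat.Coprime l n) (hn : Odd n) (hNa : ∀ a : K, N (algebraMap K D a) = a ^ n)
    (hNs : ∀ x : D, N (star x) = star (N x))
    (hNc : Tendsto (fun x : D => algebraMap K D (N x)⁻¹) (𝓝 1) (𝓝 1)) [T1Space D]
    (hst : ∀ c : K, star (algebraMap K D c) = algebraMap K D (star c))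
    {t : K} (ht : t + star t = 1) (hP : PsiCh ch Ψ)
    (hnn : ∀ᶠ g in 𝓝 (1 : D), N g = 1 → n • Ψ g = 0) :
    ∀ᶠ u in 𝓝 (1 : D), u * star u = 1 → N u = 1 → ch u = 0 := by
  obtain ⟨m, hm⟩ := hn
  have hlc := smul_ch (N := N) hc hW h1m h1n hq0 hQl
  obtain ⟨hg1, hh1⟩ := H955.Odd.tendsto_hh hNc ht m (tendsto_id (x := 𝓝 (1 : D)))
  have hne : ∀ᶠ u in 𝓝 (1 : D), H955.Odd.hg t u ≠ 0 :=
    hg1 (isOpen_ne.mem_nhds (one_ne_zero : (1 : D) ≠ 0))
  filter_upwards [hlc, hh1.eventually hP, hh1.eventually hnn, hne] with u h1 h2 h3 h4 hu hN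
  obtain ⟨-, e2, -, -, e5, e6⟩ := H955.Odd.hh_spec hst hNs hm hNa hu hN h4
  have h5 := h2 e5
  have h6 : n • ch u = 0 := by
    have h7 := h3 e2
    simp only [id_eq] at h5 h7
    rw [h5, ← e6] at h7
    exact h7
  have h8 := h1 hu hN
  have h9 : Nat.gcd l n • ch u = 0 := by
    have h10 : addOrderOf (ch u) ∣ Nat.gcd l n :=
      Nat.dvd_gcd (addOrderOf_dvd_of_nsmul_eq_zero h8) (addOrderOf_dvd_of_nsmul_eq_zero h6)
    exact addOrderOf_dvd_iff_nsmul_eq_zero.mp h10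
  rwa [hln.gcd_eq_one, one_nsmul] at h9

/-- **The last step.** -/
theorem mem_of_ch (h1m : ∀ u ∈ W1, ∀ v ∈ W1, u * v ∈ W1)
    (h1s : ∀ u ∈ W1, star u ∈ W1) (h1u : ∀ u ∈ W1, u * star u = 1) (hW : W1 ⊆ W)
    (h1n : ∀ᶠ x in 𝓝 (1 : D), x * star x = 1 → x ∈ W1)
    (hroot : ∀ x ∈ W1, ∀ a : K, algebraMap K D a = x → a ^ n = 1 → a = 1)
    (hNa : ∀ a : K, N (algebraMap K D a) = a ^ n)
    (hQ : ∀ q ∈ Q, (q : D) * star (q : D) = 1 ∧ N (q : D) = 1)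
    (hker : ∀ u : Dˣ, (u : D) ∈ W → ch u = 0 → ∃ z ∈ kg K D, ∃ q ∈ Q, (q : D) ∈ W1 ∧ u = q * z)
    (h0 : ∀ᶠ u in 𝓝 (1 : D), u * star u = 1 → N u = 1 → ch u = 0) :
    ∀ᶠ u in 𝓝 (1 : D), ∀ x : Dˣ, (x : D) = u → u * star u = 1 → N u = 1 → x ∈ Q := by
  filter_upwards [h0, h1n] with u h2 h3 x hx hu hN
  have hxW : (x : D) ∈ W1 := by rw [hx]; exact h3 hu
  obtain ⟨z, ⟨a, ha, hz⟩, q, hq, hqW, hxq⟩ := hker x (hW hxW) (by rw [hx]; exact h2 hu hN)
  have h4 : star (q : D) * (x : D) = algebraMap K D a := by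
    rw [hxq, Units.val_mul, ← mul_assoc, star_mul_of (h1u _ hqW), one_mul, hz]
  have h5 : algebraMap K D a ∈ W1 := by
    rw [← h4]
    exact h1m _ (h1s _ hqW) _ hxW
  have h6 : a ^ n = 1 := by
    have h7 : N (x : D) = N (q : D) * N (z : D) := by rw [hxq, Units.val_mul, map_mul]
    rw [hx, hN, (hQ q hq).2, one_mul, hz, hNa] at h7
    exact h7.symm
  have h8 := hroot _ h5 a rfl h6
  have h9 : z = 1 := Units.ext (by rw [hz, h8, map_one, Units.val_one])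
  rw [hxq, h9, mul_one]
  exact hq

end Vale.Agent.P011.H271.Odd
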