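import Vale.Agent.P011.H271.Odd.AsmF
import Vale.Agent.P011.H699.Odd.TypC
import Vale.Agent.P011.H496.Typ.KrasP
import Vale.Agent.P011.H496.Typ.SplS

/-!
**Function fields: the commutators of the unitary elements close to one, every odd degree.**
-/

open Module Filter Topology
open scoped commutatorElement

set_option linter.unusedSectionVars false
set_option linter.style.haveILetI false

namespace Vale.Agent.P011.H271.Odd

open Vale.Agent.P011.H738 Vale.Agent.P011.H271 Vale.Agent.P011.H698
open Vale.Agent.P011.H496.Spl (SplAt)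

/-- **The input `E`** in every odd degree. -/
theorem modE_any {k K D Ω : Type} [Field k] [Field K] [StarRing K] [DivisionRing D] [StarRing D]
    [Algebra k K] [Algebra k D] [Algebra K D] [IsScalarTower k K D] [StarModule K D] {n N : ℕ}
    [Field Ω] [Algebra K Ω] (hk : IsGlobalFunctionField k) (hA : Anis k K D n)
    (hn : 3 ≤ n) (ho : Odd n) (f : D →ₐ[K] Matrix (Fin n) (Fin n) Ω) (B : Basis (Fin N) k D)
    {T : Finset (Place k)} [hT0 : Nonempty T] (hTA : Adiv k K D ⊆ (T : Set (Place k)))
    (hTS : ∀ v, v ∉ T → SplAt K D n v) : ModE f B T := by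
  have hgff := gff_of_isGlobal hk
  have hcen := hA.central
  have hfd : FiniteDimensional K D := Module.finite_of_finrank_pos (by
    rw [hA.finrank_eq]
    positivity)
  haveI : FiniteDimensional k K := (H519.quad hA.fixed hA.star_ne).1
  obtain ⟨v0, hv0⟩ := hT0
  have hTne : (T : Set (Place k)).Nonempty := ⟨v0, hv0⟩
  have hTS' : ∀ v, v ∉ (T : Set (Place k)) → SplAt K D n v := fun v hv =>
    hTS v (by simpa using hv)
  refine modE_of f B fun Q H hQH hH hc => ?_
  obtain ⟨T1, hT1, ε0, hε0, hH1⟩ := hH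
  obtain ⟨η, hη, h1⟩ := H699.Odd.TypC.e_typ hk hA hn f B T.finite_toSet hTne hTA
    (H496.Typ.kras_ff hA.finrank_eq (fun x => W.natDegree_le (by omega) f x) B
      T.finite_toSet hTne)
    (fun ι ν hν R hR => H496.Typ.splE_all hk hA ho hn f B hν T.finite_toSet hTA hTS' hR)
    (fun η hη => H496.Typ.exists_base hk hA ho hn f B T.finite_toSet hTS' hη) hε0
  exact ⟨η, hη, h1 Q H hQH (fun g hg => hH1 g fun v hv => hg v (hT1 v hv)) hc⟩

theorem modEAll {n : ℕ} (hn : 3 ≤ n) (ho : Odd n) : ModEAll n := by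
  intro k K D _ _ _ _ _ _ _ _ _ _ hk hA _ Ω _ _ f N B T _ hT
  exact modE_any hk hA hn ho f B hT.adiv hT.spl

end Vale.Agent.P011.H271.Odd
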