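import Vale.Agent.P011.H271.Odd.AsmF
import Vale.Agent.P011.H209.Insep.EndP

/-!
**Function fields: the input `RW` for the characteristic.**
-/

open Module Filter Topology

set_option linter.unusedSectionVars false
set_option linter.style.haveILetI false

namespace Vale.Agent.P011.H271.Odd

open Vale.Agent.P011.H738 Vale.Agent.P011.H271 Vale.Agent.P011.H698
open Vale.Agent.P011.H775.Top
open Vale.Agent.P011.W (HasNrd)

/-- **The input `RW`** for the characteristic. -/
theorem modRWIns {n : ℕ} (hn0 : n ≠ 0) : ModRWIns n := by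
  intro k K D _ _ _ _ _ _ _ _ _ _ hk hA Ω _ _ f N B T _ hT R hR l hl hln hlk
  have hgff := gff_of_isGlobal hk
  have hcen := hA.central
  have hfd : FiniteDimensional K D := Module.finite_of_finrank_pos (by
    rw [hA.finrank_eq]
    positivity)
  haveI : Infinite k := by
    obtain ⟨v⟩ := Hey.nonempty_place k
    exact infinite_of_place v
  haveI : Infinite K := Infinite.of_injective _ (algebraMap k K).injective
  have hS : H961.SetG k K D := H961.anis_toG hA hn0
  haveI : Fact l.Prime := ⟨hl⟩
  haveI : CharP k l := by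
    obtain ⟨q, hq⟩ := CharP.exists k
    have h1 : q ∣ l := (CharP.cast_eq_zero_iff k q l).mp hlk
    rcases (Nat.dvd_prime hl).mp h1 with h | h
    · subst h
      exact absurd (ringChar.eq k 1) CharP.ringChar_ne_one
    · rwa [h] at hq
  obtain ⟨e, m, hm, hnm⟩ := Nat.exists_eq_pow_mul_and_not_dvd hn0 l hl.ne_one
  refine modRW_of_germ f B ?_
  letI := topD B (af T)
  intro E _ _ _ Ψ hΨ
  refine ⟨m, ((Nat.Prime.coprime_iff_not_dvd hl).mpr hm).symm, ?_⟩
  have h := H209.Insep.rw_p hS hnm hA.finrank_eq B T (Ψ := Ψ) hΨ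
  exact h.mono fun x hx hRx => hx (hasNrd_one hA.finrank_eq f hR hRx)

end Vale.Agent.P011.H271.Odd
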