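import Vale.Agent.P011.H271.Odd.AsmF
import Vale.Agent.P011.H275.GW8c
import Vale.Agent.P011.H677.NSF.Main
import Vale.Agent.P011.H677.GW.RootFF
import Vale.Agent.P011.H605.Odd.GermGood
import Vale.Agent.P011.H612.Germ.Inst
import Vale.Agent.P011.H192.Span.Alg

/-!
**Function fields: the input `RW` for the primes different from the characteristic.**
-/

open Module Filter Topology

set_option linter.unusedSectionVars false
set_option linter.style.haveILetI false

namespace Vale.Agent.P011.H271.Odd

open Vale.Agent.P011.H738 Vale.Agent.P011.H271 Vale.Agent.P011.H698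
open Vale.Agent.P011.H775.Top
open Vale.Agent.P011.H677.GW (nb Good)
open Vale.Agent.P011.W (HasNrd)

/-- **The input `RW`** for the primes different from the characteristic. -/
theorem modRWSep {n : ℕ} (hn0 : n ≠ 0) : ModRWSep n := by
  intro k K D _ _ _ _ _ _ _ _ _ _ hk hA Ω _ _ f N B T _ hT R hR l hl hln hlk
  have hgff := gff_of_isGlobal hk
  have hcen := hA.central
  have hfd : FiniteDimensional K D := Module.finite_of_finrank_pos (by
    rw [hA.finrank_eq]
    positivity)
  have hq := H519.quad hA.fixed hA.star_ne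
  haveI : FiniteDimensional k K := hq.1
  haveI : Algebra.IsSeparable k K := hq.2.1
  haveI : Infinite k := by
    obtain ⟨v⟩ := Hey.nonempty_place k
    exact infinite_of_place v
  haveI : Infinite K := Infinite.of_injective _ (algebraMap k K).injective
  obtain ⟨q, hqp, hqc, -⟩ := H192.Span.exists_char k
  obtain ⟨t, ht0, ht⟩ := exists_small_ff T
  refine modRW_of_near hA.finrank_eq f B hR ?_
  letI := topk (af T)
  haveI := topk_isTopologicalDivisionRing (af T)
  haveI := topk_t2 (af T)
  intro E _ e hE F hF
  refine ⟨1, Nat.coprime_one_left l, ?_⟩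
  have hMk : ((l ^ e : ℕ) : k) ≠ 0 := by
    rw [Nat.cast_pow]
    exact pow_ne_zero _ hlk
  have h := H275.GW8.rw_sep (k := k) (A := E) (H612.Germ.conjP_topk (af T) ht0 ht E)
    (H612.Germ.conjM_topk (af T) ht0 ht E) (H605.Odd.baseP k E)
    (pow_ne_zero e hl.ne_zero) hE hMk (fun p hp hpl => by
      have hpl' : p = l := (Nat.prime_dvd_prime_iff_eq hp hl).mp (hp.dvd_of_dvd_pow hpl)
      rw [hpl']
      exact H677.NSF.nSurP_ff T hl hlk) (H677.GW.rootP_ff (af T) (af_na T) q (l ^ e) hMk)
    (K := K) (D := D) hA.finrank_eq hF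
  exact h.mono fun x hx h1 => by rw [one_smul]; exact hx h1

end Vale.Agent.P011.H271.Odd
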