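import Vale.Agent.P011.H271.Odd.TopFF
import Vale.Agent.P011.H496.Spl.SplG
import Vale.Agent.P011.H74.Odd.E13F
import Vale.Agent.P011.H90.Germ
import Vale.Agent.P011.H961.SetG
import Vale.Agent.P011.H704.HQ.Main

/-!
**Function fields: the solvable step for the division algebras of odd degree, from three modules.**
-/

open Module Filter Topology
open scoped commutatorElement

set_option linter.unusedSectionVars false
set_option linter.style.haveILetI false

namespace Vale.Agent.P011.H271.Odd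

open Vale.Agent.P011.H738 Vale.Agent.P011.H271 Vale.Agent.P011.H698
open Vale.Agent.P011.H775.Top
open Vale.Agent.P011.H496.Spl (SplAt)

section psi

variable {K D Ω E : Type} [Field K] [DivisionRing D] [Algebra K D] [Algebra.IsCentral K D]
  [FiniteDimensional K D] [TopologicalSpace D] [IsTopologicalDivisionRing D] [T1Space D]
  [Field Ω] [Algebra K Ω] {n : ℕ} [AddCommGroup E]

theorem LocAdd.ev {Ψ : D → E} (h : LocAdd Ψ) :
    ∀ᶠ p : D × D in 𝓝 ((1 : D), (1 : D)), Ψ (p.1 * p.2) = Ψ p.1 + Ψ p.2 := by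
  obtain ⟨V, hV, h1⟩ := h
  filter_upwards [prod_mem_nhds hV hV] with p hp
  exact h1 _ hp.1 _ hp.2

/-- Conjugation invariance. -/
theorem LocAdd.conj {Ψ : D → E} (h : LocAdd Ψ)
    (hc : ∀ O ∈ 𝓝 (0 : D), ∃ t : K, t ≠ 0 ∧ algebraMap K D t ∈ O) {g : D} (hg : g ≠ 0) :
    ∀ᶠ m in 𝓝 (1 : D), Ψ (g * m * g⁻¹) = Ψ m := by
  have h1 := H90.germ_conj_div (D := D) (E := Multiplicative E) (fun O hO => by
    obtain ⟨t, ht, htO⟩ := hc O hO
    exact ⟨_, htO, (map_ne_zero _).mpr ht, fun x => Algebra.commutes t x⟩)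
    (fun x => Multiplicative.ofAdd (Ψ x)) (h.ev.mono fun p hp => by
      rw [hp, ofAdd_add]) hg
  exact h1.mono fun m hm => Multiplicative.ofAdd.injective hm

/-- The value at the elements of reduced norm one is killed by the degree. -/
theorem LocAdd.nrd {Ψ : D → E} (h : LocAdd Ψ) (hn : 0 < n) (hdeg : finrank K D = n ^ 2)
    (f : D →ₐ[K] Matrix (Fin n) (Fin n) Ω) {e : D} (he : (minpoly K e).natDegree = n)
    (hc : ∀ O ∈ 𝓝 (0 : D), ∃ t : K, t ≠ 0 ∧ algebraMap K D t ∈ O) {R : D →* K}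
    (hR : ∀ x, (f x).det = algebraMap K Ω (R x)) :
    ∀ᶠ g in 𝓝 (1 : D), R g = 1 → n • Ψ g = 0 := by
  obtain ⟨V, hV, h1⟩ := id h
  have h2 := H97c.psi_nrd (E := Multiplicative E) hn hdeg f he hc
    (Psi := fun x => Multiplicative.ofAdd (Ψ x)) ⟨V, hV, fun g hg g' hg' => by
      change Multiplicative.ofAdd (Ψ (g * g')) = _
      rw [h1 g hg g' hg', ofAdd_add]⟩ (fun x hx => (h.conj hc hx).mono fun m hm => by
        change Multiplicative.ofAdd (Ψ (x * m * x⁻¹)) = _
        rw [hm])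
  have h3 : Ψ 1 = 0 := by
    have h4 := h1 1 (mem_of_mem_nhds hV) 1 (mem_of_mem_nhds hV)
    rw [mul_one] at h4
    exact (left_eq_add.mp h4)
  filter_upwards [h2] with g hg hg1
  have h5 := hg 1 (by rw [hR, hg1])
  rw [map_one, h3, ← ofAdd_nsmul] at h5
  exact (Multiplicative.ofAdd.injective h5).symm

end psi

variable {k K D Ω : Type} [Field k] [Field K] [StarRing K] [DivisionRing D] [StarRing D]
  [Algebra k K] [Algebra k D] [Algebra K D] [IsScalarTower k K D] [StarModule K D] {n N : ℕ}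
  [Field Ω] [Algebra K Ω]

/-- The images of the elements of `Q` are unitary of reduced norm one. -/
theorem map_su {f : D →ₐ[K] Matrix (Fin n) (Fin n) Ω} {R : D →* K}
    (hR : ∀ x, (f x).det = algebraMap K Ω (R x)) (Q : Subgroup (SUA f)) :
    ∀ q ∈ Q.map (SUA f).subtype, (q : D) * star (q : D) = 1 ∧ R (q : D) = 1 := by
  rintro _ ⟨q, -, rfl⟩
  obtain ⟨h1, h2⟩ := q.2
  refine ⟨h1, (algebraMap K Ω).injective ?_⟩
  change algebraMap K Ω (R (((q : Dˣ)) : D)) = _
  rw [← hR, map_one]
  exact h2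

/-- **The solvable step in odd degree over function fields**, from the modules `E`, `PSI` and
`RW`. -/
theorem solvAtF_skel (hk : IsGlobalFunctionField k) (hA : Anis k K D n) (hn : 3 ≤ n)
    (ho : Odd n) (f : D →ₐ[K] Matrix (Fin n) (Fin n) Ω) (B : Basis (Fin N) k D)
    {T : Finset (Place k)} [Nonempty T] (hTA : Adiv k K D ⊆ (T : Set (Place k)))
    (hTS : ∀ v, v ∉ T → SplAt K D n v)
    {R : D →* K} (hR : ∀ x, (f x).det = algebraMap K Ω (R x))
    (hE : ModE f B T) (hPsi : ModPsi K B T)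
    (hRW : ∀ l : ℕ, l.Prime → l ∣ n → ModRW f B T R l) :
    H305.SolvAtF k K f B := by
  have hgff := gff_of_isGlobal hk
  have hcen := hA.central
  have hfd : FiniteDimensional K D := Module.finite_of_finrank_pos (by
    rw [hA.finrank_eq]
    positivity)
  haveI : FiniteDimensional k K := (H519.quad hA.fixed hA.star_ne).1
  haveI : GFF K := Hey.H63.gff_of_finite (k := k)
  have hst : ∀ (c : k) (x : D), star (c • x) = c • star x := H519.star_smul_of_anis hA
  have hsalg : ∀ c : K, star (algebraMap K D c) = algebraMap K D (star c) := fun c => by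
    rw [Algebra.algebraMap_eq_smul_one, star_smul, star_one, ← Algebra.algebraMap_eq_smul_one]
  refine solvAtF_of_nearT hk hA hn f B fun Q H hQ hH hQH hi hpf hp hc hV => ?_
  obtain ⟨ε0, hε0, hEc⟩ := hE Q H hQH hpf hc
  letI := topD B (af T)
  haveI := isTopologicalDivisionRing B (af T)
  haveI := t2 B (af T)
  haveI := H775.Top.continuousStar B (af T) hst
  have hn0 : n ≠ 0 := by omega
  have hRa : ∀ a : K, R (algebraMap K D a) = a ^ n := fun a => by
    apply (algebraMap K Ω).injective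
    rw [← hR, AlgHom.commutes, Matrix.algebraMap_eq_diagonal, Matrix.det_diagonal]
    simp
  have hRs : ∀ x : D, R (star x) = star (R x) := by
    have hinf : Infinite K := by
      obtain ⟨v⟩ := Hey.nonempty_place k
      have := infinite_of_place v
      exact Infinite.of_injective _ (algebraMap k K).injective
    obtain ⟨R', hR', -, hRdet'⟩ := H327.TN.exists_rn (n := n) hA.finrank_eq hsalg
    have hRR : R = R' := by
      ext x
      apply (algebraMap K Ω).injective
      rw [← hR, hRdet']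
    rw [hRR]
    exact hR'.star
  have hRc := tendsto_nrd_inv B (af T) f hR
  have hroot := roots_far (K := K) B (af T) hn0
  have hsm := smallG B (af T) (af_na T) hst
  -- the powers
  have hHl : ∀ᶠ u in 𝓝 (1 : D), ∀ x : Dˣ, (x : D) = u → u * star u = 1 → R u = 1 →
      x ^ (Q.relIndex H) ∈ Q.map (SUA f).subtype := by
    obtain ⟨T0, hT0, ε1, hε1, hH1⟩ := hpf
    refine (ev_iff B).mpr ⟨ε1, hε1, fun u hu x hx huu huR => ?_⟩
    have hxS : x ∈ SUA f := ⟨by rw [hx]; exact huu, by rw [hx, hR, huR, map_one]⟩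
    have hxH : (⟨x, hxS⟩ : SUA f) ∈ H := hH1 ⟨x, hxS⟩ fun v hv => by
      change ∀ i, v.abv (B.repr ((x : D) - 1) i) < ε1
      rw [hx]
      exact hu v (hTA (hT0 v hv))
    have h2 : (⟨x, hxS⟩ : SUA f) ^ (Q.relIndex H) ∈ Q := by
      have hN : (Q.subgroupOf H).Normal := inferInstance
      have h3 := Subgroup.pow_index_mem (Q.subgroupOf H) (⟨⟨x, hxS⟩, hxH⟩ : H)
      rw [Subgroup.mem_subgroupOf] at h3
      exact h3
    exact ⟨_, h2, rfl⟩
  have hO : {x : D | ∀ v ∈ T, Sm B v ε0 (x - 1)} ∈ 𝓝 (1 : D) :=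
    (ev_iff B (P := fun x => ∀ v ∈ T, Sm B v ε0 (x - 1))).mpr ⟨ε0, hε0, fun x hx => hx⟩
  obtain ⟨E, iE, e, W1, W, ch, hEl, hD⟩ := exists_chrD (K := K) hsm hp hn0 hRa hRs hRc hroot
    (Q.map (SUA f).subtype) (map_su hR Q) hO (fun u w h1 h2 h3 h4 => hEc u w h1 h2 h3 h4) hHl
  obtain ⟨Ψ, hΨ1, hΨ2⟩ := hPsi E W ch hD.chr
  have hfin : ∀ᶠ u in 𝓝 (1 : D), u * star u = 1 → R u = 1 → ch u = 0 := by
    by_cases hln : (Q.relIndex H) ∣ n
    · have hodd : Odd (Q.relIndex H) := by
        rcases Nat.even_or_odd (Q.relIndex H) with he | h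
        · exact absurd (he.two_dvd.trans hln) (by
            rw [← even_iff_two_dvd, Nat.not_even_iff_odd]
            exact ho)
        · exact h
      exact ch_zero_odd hD.chr hD.le hD.mul hD.inv hD.near hD.ker (map_su hR Q) hHl hodd hΨ2
        (hRW _ hp hln Q H hQ hH hQH hi hpf rfl hc hV E e W1 W ch Ψ hEl hD hΨ1 hΨ2)
    · obtain ⟨κ, hκ⟩ : ∃ κ : K, κ + star κ = 1 := by
        obtain ⟨w, hw⟩ := hA.star_ne
        refine ⟨w / (w - star w), ?_⟩
        have h0 : w - star w ≠ 0 := sub_ne_zero.mpr (Ne.symm hw)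
        have h0' : star w - w ≠ 0 := sub_ne_zero.mpr hw
        rw [star_div₀, star_sub, star_star]
        field_simp
        ring
      obtain ⟨t, ht0, ht⟩ := H704.HQ.exists_small_scalar T (fun _ => 1) (fun _ => one_pos)
      have hsmall : ∀ O ∈ 𝓝 (0 : D), ∃ t : K, t ≠ 0 ∧ algebraMap K D t ∈ O := by
        intro O hO
        obtain ⟨c, hc0, hcO⟩ := H775.Top.exists_small B (af T) ht0 (fun i => ht i i.2) O hO
        refine ⟨algebraMap k K c, (map_ne_zero _).mpr hc0, ?_⟩
        rwa [← IsScalarTower.algebraMap_apply]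
      obtain ⟨e0, he0⟩ : ∃ e0 : D, (minpoly K e0).natDegree = n := by
        obtain ⟨q, hq, -⟩ := H519.exists_split_place hk hA hn0 T 0
        obtain ⟨W0, hW0⟩ := H511.FF.exists_above_ab (K := K) q
        obtain ⟨g, -, hg⟩ := H496.Spl.exists_split hk hA ho hn f B T.finite_toSet {q}
          (fun v hv => by
            rw [Finset.mem_singleton] at hv
            rw [hv]
            exact hq) (fun v hv => by
            rw [Finset.mem_singleton] at hv
            rw [hv]
            exact hTS q hq) {1} (fun h hh => by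
            rw [Finset.mem_singleton] at hh
            rw [hh, star_one, one_mul]) (q := 1) one_ne_zero one_pos
        exact ⟨_, (hg 1 (Finset.mem_singleton_self _) q (Finset.mem_singleton_self _) W0 hW0).1⟩
      exact ch_zero_cop hD.chr hD.le hD.mul hD.near hD.ker hHl
        ((Nat.Prime.coprime_iff_not_dvd hp).mpr hln) ho hRa hRs hRc hsalg hκ hΨ2
        (hΨ1.nrd (by omega) hA.finrank_eq f he0 hsmall hR)
  obtain ⟨ε, hε, h⟩ := (ev_iff B).mp (hD.zero hfin)
  refine ⟨T, ε, hε, fun g hg => ?_⟩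
  have hgR : R ((g : Dˣ) : D) = 1 := by
    apply (algebraMap K Ω).injective
    rw [← hR, map_one]
    exact g.2.2
  obtain ⟨q, hq, hqg⟩ := h _ (fun v hv => hg v hv) (g : Dˣ) rfl g.2.1 hgR
  have h1 : q = g := Subtype.ext hqg
  rwa [← h1]

end Vale.Agent.P011.H271.Odd
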