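import Vale.Agent.P011.H271.Odd.RWSep
import Vale.Agent.P011.H271.Odd.RWIns
import Vale.Agent.P011.H271.Odd.ModEAll

/-!
**Global function fields of every characteristic: the solvable step for the division algebras of
odd degree.**
-/

open Module

set_option linter.unusedSectionVars false

namespace Vale.Agent.P011.H271.Odd

open Vale.Agent.P011.H738

/-- **The solvable step in odd degree over the global function fields** of every characteristic,
without further hypotheses. -/
theorem solvAtF_odd {k K D Ω : Type} [Field k] [Field K] [StarRing K] [DivisionRing D]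
    [StarRing D] [Algebra k K] [Algebra k D] [Algebra K D] [IsScalarTower k K D] [StarModule K D]
    {n N : ℕ} [Field Ω] [Algebra K Ω] (hk : IsGlobalFunctionField k) (hA : Anis k K D n)
    (hn : 3 ≤ n) (ho : Odd n) (f : D →ₐ[K] Matrix (Fin n) (Fin n) Ω) (B : Basis (Fin N) k D) :
    H305.SolvAtF k K f B :=
  solvG_of hn ho (modEAll hn ho) (modRWSep (by omega)) (modRWIns (by omega)) k K D hk hA Ω f N B

end Vale.Agent.P011.H271.Odd
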